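import Vale.Agent.P243.MathlibUsed
import Vale.Agent.P243.Plain

set_option linter.all false

section

section

open MeasureTheory
open scoped ENNReal

namespace Vale.Agent.P243

/-- Euclidean three-space. -/
abbrev E3 : Type := EuclideanSpace ℝ (Fin 3)

/-- The plane through the origin orthogonal to `u`. -/
noncomputable abbrev perp (u : E3) : Submodule ℝ E3 := (Submodule.span ℝ {u})ᗮ

/-- Orthogonal projection of space onto the plane `perp u`. -/
noncomputable def proj (u : E3) (x : E3) : perp u := (perp u).orthogonalProjectionOnto x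

/-- A convex body: a compact convex set with nonempty interior. -/
def IsConvexBody (K : Set E3) : Prop := IsCompact K ∧ Convex ℝ K ∧ (interior K).Nonempty

/-- Planar area of the orthogonal projection of `K` onto the plane `perp u`. -/
noncomputable def shadowArea (K : Set E3) (u : E3) : ℝ := (volume (proj u '' K)).toReal

/-- The smallest area of an orthogonal projection of `K` onto a plane. -/
noncomputable def Amin (K : Set E3) : ℝ := ⨅ u : Metric.sphere (0 : E3) 1, shadowArea K u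

/-- The cylinder with base `B` in the plane `perp u` and axis direction `u`. -/
def cylinder (u : E3) (B : Set (perp u)) : Set E3 := {x | proj u x ∈ B}

/-- A finite covering of `K` by cylinders: unit axis directions, Lebesgue measurable bases of
finite planar area, and every point of `K` lies in one of the cylinders. -/
structure CylinderCovering (K : Set E3) where
  m : ℕ
  axis : Fin m → E3
  norm_axis : ∀ i, ‖axis i‖ = 1
  base : ∀ i, Set (perp (axis i))
  base_measurable : ∀ i, NullMeasurableSet (base i) volume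
  base_finite : ∀ i, volume (base i) ≠ ∞
  covers : K ⊆ ⋃ i, cylinder (axis i) (base i)

/-- The total base area of a covering. -/
noncomputable def CylinderCovering.totalArea {K : Set E3} (C : CylinderCovering K) : ℝ :=
  ∑ i, (volume (C.base i)).toReal

/-- The directionwise relative area of a covering. -/
noncomputable def CylinderCovering.relArea {K : Set E3} (C : CylinderCovering K) : ℝ :=
  ∑ i, (volume (C.base i)).toReal / shadowArea K (C.axis i)

end Vale.Agent.P243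
end
end

section

section

open MeasureTheory
open scoped ENNReal

namespace Vale.Agent.P243

/-- A surjective linear map to the plane kills exactly one direction. -/
theorem exists_axis (φ : E3 →L[ℝ] ℝ × ℝ) (hs : Function.Surjective φ) :
    ∃ u : E3, ‖u‖ = 1 ∧ ∀ x, φ x = 0 ↔ x ∈ Submodule.span ℝ {u} := by
  have h1 : Module.finrank ℝ (φ : E3 →ₗ[ℝ] ℝ × ℝ).range
      + Module.finrank ℝ (φ : E3 →ₗ[ℝ] ℝ × ℝ).ker = Module.finrank ℝ E3 :=
    LinearMap.finrank_range_add_finrank_ker (φ : E3 →ₗ[ℝ] ℝ × ℝ)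
  have h2 : (φ : E3 →ₗ[ℝ] ℝ × ℝ).range = ⊤ := LinearMap.range_eq_top.mpr hs
  rw [h2, finrank_top] at h1
  have h3 : Module.finrank ℝ E3 = 3 := by simp
  have h4 : Module.finrank ℝ (ℝ × ℝ) = 2 := by simp
  rw [h3, h4] at h1
  have h5 : Module.finrank ℝ (φ : E3 →ₗ[ℝ] ℝ × ℝ).ker = 1 := by omega
  obtain ⟨v, hv0, hv⟩ := finrank_eq_one_iff'.mp h5
  have hv0' : (v : E3) ≠ 0 := fun h => hv0 (Subtype.ext h)
  have hn : ‖(v : E3)‖ ≠ 0 := norm_ne_zero_iff.mpr hv0'
  refine ⟨(‖(v : E3)‖)⁻¹ • (v : E3), ?_, ?_⟩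
  · rw [norm_smul, norm_inv, norm_norm, inv_mul_cancel₀ hn]
  · intro x
    rw [Submodule.span_singleton_smul_eq (IsUnit.mk0 _ (inv_ne_zero hn)),
      Submodule.mem_span_singleton]
    constructor
    · intro hx
      obtain ⟨c, hc⟩ := hv ⟨x, hx⟩
      exact ⟨c, by simpa using congrArg Subtype.val hc⟩
    · rintro ⟨c, rfl⟩
      have : φ (v : E3) = 0 := v.2
      simp [this]

theorem sub_proj_mem (u x : E3) : x - (proj u x : E3) ∈ Submodule.span ℝ {u} := by
  have h := Submodule.sub_starProjection_mem_orthogonal (K := perp u) x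
  rw [Submodule.orthogonal_orthogonal] at h
  exact h

theorem map_proj {φ : E3 →L[ℝ] ℝ × ℝ} {u : E3}
    (hu : ∀ x, φ x = 0 ↔ x ∈ Submodule.span ℝ {u}) (x : E3) : φ (proj u x : E3) = φ x := by
  have h := (hu _).mpr (sub_proj_mem u x)
  rw [map_sub, sub_eq_zero] at h
  exact h.symm

/-- The linear identification of the plane `perp u` with `ℝ × ℝ` given by `φ`. -/
theorem exists_equiv {φ : E3 →L[ℝ] ℝ × ℝ} (hs : Function.Surjective φ) {u : E3}
    (hu : ∀ x, φ x = 0 ↔ x ∈ Submodule.span ℝ {u}) :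
    ∃ e : perp u ≃L[ℝ] ℝ × ℝ, ∀ y, e y = φ (y : E3) := by
  have hb : Function.Bijective ((φ : E3 →ₗ[ℝ] ℝ × ℝ).comp (perp u).subtype) := by
    constructor
    · rw [← LinearMap.ker_eq_bot, LinearMap.ker_eq_bot']
      intro y hy
      have h1 : (y : E3) ∈ Submodule.span ℝ {u} := (hu _).mp hy
      have h2 : (y : E3) ∈ (Submodule.span ℝ {u})ᗮ := y.2
      have h3 : (y : E3) = 0 := by
        have := (Submodule.mem_orthogonal _ _).mp h2 _ h1
        exact inner_self_eq_zero.mp this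
      exact Subtype.ext h3
    · intro z
      obtain ⟨x, rfl⟩ := hs z
      exact ⟨proj u x, map_proj hu x⟩
  refine ⟨(LinearEquiv.ofBijective _ hb).toContinuousLinearEquiv, fun y => rfl⟩

/-- Area in the plane `perp u` is a fixed positive multiple of area in `ℝ × ℝ`. -/
theorem exists_scale {u : E3} (e : perp u ≃L[ℝ] ℝ × ℝ) :
    ∃ c : ℝ≥0∞, c ≠ 0 ∧ c ≠ ∞ ∧ ∀ S : Set (ℝ × ℝ), volume (e ⁻¹' S) = c * volume S := by
  have h1 : (Measure.map e (volume : Measure (perp u))).IsAddHaarMeasure :=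
    ContinuousLinearEquiv.isAddHaarMeasure_map e volume
  have h2 := Measure.isAddLeftInvariant_eq_smul
    (Measure.map e (volume : Measure (perp u))) (volume : Measure (ℝ × ℝ))
  set c := (Measure.map e (volume : Measure (perp u))).addHaarScalarFactor
    (volume : Measure (ℝ × ℝ)) with hc
  have h3 : ∀ S : Set (ℝ × ℝ), volume (e ⁻¹' S) = (c : ℝ≥0∞) * volume S := by
    intro S
    have h4 : (Measure.map e (volume : Measure (perp u))) S = volume (e ⁻¹' S) :=
      MeasurableEquiv.map_apply e.toHomeomorph.toMeasurableEquiv S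
    rw [← h4, h2]
    simp
  refine ⟨c, ?_, ENNReal.coe_ne_top, h3⟩
  intro hc0
  have h5 := h3 Set.univ
  rw [hc0, zero_mul, Set.preimage_univ] at h5
  exact (NeZero.ne (volume : Measure (perp u))) (Measure.measure_univ_eq_zero.mp h5)

/-- Coverings may be described by arbitrary surjective linear maps to the plane. -/
theorem exists_covering_of_maps {K : Set E3} {n : ℕ} (φ : Fin n → (E3 →L[ℝ] ℝ × ℝ))
    (R : Fin n → Set (ℝ × ℝ)) (hs : ∀ i, Function.Surjective (φ i))
    (hR : ∀ i, MeasurableSet (R i)) (hRf : ∀ i, volume (R i) ≠ ∞)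
    (hK : K ⊆ ⋃ i, φ i ⁻¹' R i) :
    ∃ C : CylinderCovering K,
      C.relArea = ∑ i, (volume (R i)).toReal / (volume (φ i '' K)).toReal := by
  choose u hu1 hu using fun i => exists_axis (φ i) (hs i)
  choose e he using fun i => exists_equiv (hs i) (hu i)
  choose c hc0 hcf hc using fun i => exists_scale (e i)
  refine ⟨{ m := n, axis := u, norm_axis := hu1, base := fun i => e i ⁻¹' R i,
            base_measurable := ?_, base_finite := ?_, covers := ?_ }, ?_⟩
  · intro i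
    exact ((e i).continuous.measurable (hR i)).nullMeasurableSet
  · intro i
    rw [hc i]
    exact ENNReal.mul_ne_top (hcf i) (hRf i)
  · intro x hx
    obtain ⟨i, hi⟩ := Set.mem_iUnion.mp (hK hx)
    refine Set.mem_iUnion.mpr ⟨i, ?_⟩
    change e i (proj (u i) x) ∈ R i
    rw [he i, map_proj (hu i)]
    exact hi
  · unfold CylinderCovering.relArea
    refine Finset.sum_congr rfl fun i _ => ?_
    have h1 : proj (u i) '' K = e i ⁻¹' (φ i '' K) := by
      ext y
      constructor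
      · rintro ⟨x, hx, rfl⟩
        exact ⟨x, hx, by rw [he i, map_proj (hu i)]⟩
      · rintro ⟨x, hx, hxy⟩
        refine ⟨x, hx, (e i).injective ?_⟩
        rw [he i, map_proj (hu i), hxy]
    have h2 : shadowArea K (u i) = (c i * volume (φ i '' K)).toReal := by
      unfold shadowArea
      rw [h1, hc i]
    change (volume (e i ⁻¹' R i)).toReal / shadowArea K (u i) = _
    rw [h2, hc i, ENNReal.toReal_mul, ENNReal.toReal_mul]
    have h3 : (c i).toReal ≠ 0 := by
      rw [ENNReal.toReal_ne_zero]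
      exact ⟨hc0 i, hcf i⟩
    exact mul_div_mul_left _ _ h3

end Vale.Agent.P243
end
end

section

section

open MeasureTheory
open scoped ENNReal

namespace Vale.Agent.P243

/-- The tetrahedron with vertices (0,0,0), (1,0,0), (0,0,1), (0,1,1). -/
def K0 : Set E3 := {v : E3 | 0 ≤ v 0 ∧ 0 ≤ v 1 ∧ v 0 ≤ 1 - v 2 ∧ v 1 ≤ v 2}

theorem isConvexBody_K0 : IsConvexBody K0 := by
  have hcont : ∀ i : Fin 3, Continuous fun v : E3 => v i := fun i => by fun_prop
  refine ⟨?_, ?_, ?_⟩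
  · refine Metric.isCompact_of_isClosed_isBounded ?_ ?_
    · exact (isClosed_le continuous_const (hcont 0)).inter
        ((isClosed_le continuous_const (hcont 1)).inter
          ((isClosed_le (hcont 0) (continuous_const.sub (hcont 2))).inter
            (isClosed_le (hcont 1) (hcont 2))))
    · refine (Metric.isBounded_closedBall (x := (0 : E3)) (r := 2)).subset ?_
      rintro v ⟨h0, h1, h2, h3⟩
      rw [mem_closedBall_zero_iff, EuclideanSpace.norm_eq]
      rw [Real.sqrt_le_left (by norm_num)]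
      simp only [Fin.sum_univ_three, Real.norm_eq_abs, sq_abs]
      have h4 : v 0 ≤ 1 := by linarith
      have h5 : v 1 ≤ 1 := by linarith
      have h6 : v 2 ≤ 1 := by linarith
      have h7 : 0 ≤ v 2 := by linarith
      nlinarith only [h2, h3, h0, h1]
  · rintro v ⟨h0, h1, h2, h3⟩ w ⟨k0, k1, k2, k3⟩ a b ha hb hab
    refine ⟨?_, ?_, ?_, ?_⟩ <;> simp only [PiLp.add_apply, PiLp.smul_apply, smul_eq_mul]
    · positivity
    · positivity
    · have : b = 1 - a := by linarith only [hab]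
      subst this
      nlinarith only [h2, ha, k2, hb]
    · nlinarith only [h3, ha, k3, hb]
  · refine ⟨WithLp.toLp 2 ![1 / 8, 1 / 8, 1 / 2], ?_⟩
    rw [mem_interior]
    refine ⟨{v : E3 | 0 < v 0 ∧ 0 < v 1 ∧ v 0 < 1 - v 2 ∧ v 1 < v 2}, ?_, ?_, ?_⟩
    · rintro v ⟨h0, h1, h2, h3⟩
      exact ⟨h0.le, h1.le, h2.le, h3.le⟩
    · exact (isOpen_lt continuous_const (hcont 0)).inter
        ((isOpen_lt continuous_const (hcont 1)).inter
          ((isOpen_lt (hcont 0) (continuous_const.sub (hcont 2))).inter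
            (isOpen_lt (hcont 1) (hcont 2))))
    · change (0 : ℝ) < 1 / 8 ∧ (0 : ℝ) < 1 / 8 ∧ (1 / 8 : ℝ) < 1 - 1 / 2 ∧ (1 / 8 : ℝ) < 1 / 2
      norm_num

/-- The coordinate form of a covering statement gives a bound for the relative area. -/
theorem relArea_le_of_maps {K : Set E3} {n : ℕ} (φ : Fin n → (E3 →L[ℝ] ℝ × ℝ))
    (R : Fin n → Set (ℝ × ℝ)) (hs : ∀ i, Function.Surjective (φ i))
    (hR : ∀ i, MeasurableSet (R i)) (hRf : ∀ i, volume (R i) ≠ ∞)
    (hA : ∀ i, 1 / 2 ≤ (volume (φ i '' K)).toReal)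
    (hK : K ⊆ ⋃ i, φ i ⁻¹' R i) {r : ℝ} (hr : ∑ i, 2 * (volume (R i)).toReal ≤ r) :
    ∃ C : CylinderCovering K, C.relArea ≤ r := by
  obtain ⟨C, hC⟩ := exists_covering_of_maps φ R hs hR hRf hK
  refine ⟨C, ?_⟩
  rw [hC]
  refine le_trans (Finset.sum_le_sum fun i _ => ?_) hr
  have h1 := hA i
  have h2 : 0 ≤ (volume (R i)).toReal := ENNReal.toReal_nonneg
  rw [div_le_iff₀ (by linarith only [h1])]
  nlinarith only [h1, h2]

end Vale.Agent.P243
end
end

section

section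

open MeasureTheory
open scoped ENNReal

namespace Vale.Agent.P243

/-- The linear map to the plane with the given coefficients. -/
noncomputable def lin (a0 a1 a2 c0 c1 c2 : ℝ) : E3 →L[ℝ] ℝ × ℝ :=
  (a0 • EuclideanSpace.proj (0 : Fin 3) + a1 • EuclideanSpace.proj (1 : Fin 3)
      + a2 • EuclideanSpace.proj (2 : Fin 3) : E3 →L[ℝ] ℝ).prod
    (c0 • EuclideanSpace.proj (0 : Fin 3) + c1 • EuclideanSpace.proj (1 : Fin 3)
      + c2 • EuclideanSpace.proj (2 : Fin 3) : E3 →L[ℝ] ℝ)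

theorem lin_apply (a0 a1 a2 c0 c1 c2 : ℝ) (v : E3) : lin a0 a1 a2 c0 c1 c2 v =
    (a0 * v 0 + a1 * v 1 + a2 * v 2, c0 * v 0 + c1 * v 1 + c2 * v 2) := by
  simp only [lin, Fin.isValue, ContinuousLinearMap.prod_apply, add_apply, smul_apply, PiLp.proj_apply, smul_eq_mul]

/-- The point with given coordinates. -/
noncomputable def mk3 (x y t : ℝ) : E3 := WithLp.toLp 2 ![x, y, t]

theorem mk3_0 (x y t : ℝ) : (mk3 x y t) 0 = x := rfl
theorem mk3_1 (x y t : ℝ) : (mk3 x y t) 1 = y := rfl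
theorem mk3_2 (x y t : ℝ) : (mk3 x y t) 2 = t := rfl

/-- Admissible pieces of a covering: a surjective linear map with shadow of area at least one
half, and a measurable base of finite area. -/
def Good (φ : E3 →L[ℝ] ℝ × ℝ) (R : Set (ℝ × ℝ)) : Prop :=
  Function.Surjective φ ∧ MeasurableSet R ∧ volume R ≠ ∞ ∧ 1 / 2 ≤ (volume (φ '' K0)).toReal

/-- `S` can be covered by finitely many admissible pieces with twice the total base area at
most `c`. -/
def Coverable (S : Set E3) (c : ℝ) : Prop :=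
  ∃ (ι : Type) (_ : Fintype ι) (φ : ι → (E3 →L[ℝ] ℝ × ℝ)) (R : ι → Set (ℝ × ℝ)),
    (∀ i, Good (φ i) (R i)) ∧ S ⊆ (⋃ i, φ i ⁻¹' R i) ∧ ∑ i, 2 * (volume (R i)).toReal ≤ c

theorem Coverable.mono {S S' : Set E3} {c c' : ℝ} (h : Coverable S' c') (hS : S ⊆ S')
    (hc : c' ≤ c) : Coverable S c := by
  obtain ⟨ι, _, φ, R, h1, h2, h3⟩ := h
  exact ⟨ι, inferInstance, φ, R, h1, hS.trans h2, h3.trans hc⟩

theorem Coverable.empty : Coverable ∅ 0 :=
  ⟨Empty, inferInstance, fun i => i.elim, fun i => i.elim, fun i => i.elim,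
    Set.empty_subset _, by simp⟩

theorem Coverable.single {φ : E3 →L[ℝ] ℝ × ℝ} {R : Set (ℝ × ℝ)} (h : Good φ R) :
    Coverable (φ ⁻¹' R) (2 * (volume R).toReal) :=
  ⟨Unit, inferInstance, fun _ => φ, fun _ => R, fun _ => h,
    fun _ hx => Set.mem_iUnion.mpr ⟨(), hx⟩, by simp⟩

theorem Coverable.union {S S' : Set E3} {c c' : ℝ} (h : Coverable S c) (h' : Coverable S' c') :
    Coverable (S ∪ S') (c + c') := by
  obtain ⟨ι, _, φ, R, h1, h2, h3⟩ := h
  obtain ⟨ι', _, φ', R', h1', h2', h3'⟩ := h'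
  refine ⟨ι ⊕ ι', inferInstance, Sum.elim φ φ', Sum.elim R R', ?_, ?_, ?_⟩
  · rintro (i | i)
    · exact h1 i
    · exact h1' i
  · rintro x (hx | hx)
    · obtain ⟨i, hi⟩ := Set.mem_iUnion.mp (h2 hx)
      exact Set.mem_iUnion.mpr ⟨Sum.inl i, hi⟩
    · obtain ⟨i, hi⟩ := Set.mem_iUnion.mp (h2' hx)
      exact Set.mem_iUnion.mpr ⟨Sum.inr i, hi⟩
  · rw [Fintype.sum_sum_type]
    exact add_le_add h3 h3'

theorem Coverable.range {S : ℕ → Set E3} {c : ℕ → ℝ} (n : ℕ)
    (h : ∀ i < n, Coverable (S i) (c i)) :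
    Coverable {v | ∃ i < n, v ∈ S i} (∑ i ∈ Finset.range n, c i) := by
  induction n with
  | zero =>
    refine Coverable.mono Coverable.empty ?_ (by simp)
    rintro v ⟨i, hi, _⟩
    exact absurd hi (Nat.not_lt_zero i)
  | succ n ih =>
    have h1 := (ih fun i hi => h i (Nat.lt_succ_of_lt hi)).union (h n (Nat.lt_succ_self n))
    refine h1.mono ?_ (by rw [Finset.sum_range_succ])
    rintro v ⟨i, hi, hv⟩
    rcases Nat.lt_succ_iff_lt_or_eq.mp hi with h2 | h2
    · exact Or.inl ⟨i, h2, hv⟩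
    · subst h2
      exact Or.inr hv

/-- Translate a covering statement to `Fin n` indices. -/
theorem Coverable.exists_fin {S : Set E3} {c : ℝ} (h : Coverable S c) :
    ∃ (n : ℕ) (φ : Fin n → (E3 →L[ℝ] ℝ × ℝ)) (R : Fin n → Set (ℝ × ℝ)),
      (∀ i, Function.Surjective (φ i)) ∧ (∀ i, MeasurableSet (R i)) ∧
      (∀ i, volume (R i) ≠ ∞) ∧ (∀ i, 1 / 2 ≤ (volume (φ i '' K0)).toReal) ∧
      S ⊆ (⋃ i, φ i ⁻¹' R i) ∧ ∑ i, 2 * (volume (R i)).toReal ≤ c := by
  obtain ⟨ι, _, φ, R, h1, h2, h3⟩ := h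
  let e := (Fintype.equivFin ι).symm
  refine ⟨Fintype.card ι, fun i => φ (e i), fun i => R (e i), fun i => (h1 _).1,
    fun i => (h1 _).2.1, fun i => (h1 _).2.2.1, fun i => (h1 _).2.2.2, ?_, ?_⟩
  · intro x hx
    obtain ⟨i, hi⟩ := Set.mem_iUnion.mp (h2 hx)
    refine Set.mem_iUnion.mpr ⟨e.symm i, ?_⟩
    simpa using hi
  · rw [Equiv.sum_comp e fun i => 2 * (volume (R i)).toReal]
    exact h3

/-- Area of the image of a set under an affine map of the plane. -/
theorem volume_affine_image (a b c d e f : ℝ) (S : Set (ℝ × ℝ)) :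
    volume ((fun u : ℝ × ℝ => (a * u.1 + b * u.2 + e, c * u.1 + d * u.2 + f)) '' S)
      = ENNReal.ofReal |a * d - b * c| * volume S := by
  let L : ℝ × ℝ →ₗ[ℝ] ℝ × ℝ := Matrix.toLin (Module.Basis.finTwoProd ℝ)
    (Module.Basis.finTwoProd ℝ) !![a, b; c, d]
  have hL : ∀ u : ℝ × ℝ, L u = (a * u.1 + b * u.2, c * u.1 + d * u.2) := by
    intro u
    simp only [L, Matrix.toLin_finTwoProd_apply]
  have h1 : (fun u : ℝ × ℝ => (a * u.1 + b * u.2 + e, c * u.1 + d * u.2 + f)) '' S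
      = (fun z : ℝ × ℝ => z + (e, f)) '' (L '' S) := by
    rw [Set.image_image]
    refine Set.image_congr fun u _ => ?_
    rw [hL]
    rfl
  have hdet : LinearMap.det L = a * d - b * c := by
    simp only [L, LinearMap.det_toLin, Matrix.det_fin_two_of]
  rw [h1, Set.image_add_right, measure_preimage_add_right, Measure.addHaar_image_linearMap, hdet]

end Vale.Agent.P243
end
end

section

section

open MeasureTheory
open scoped ENNReal

namespace Vale.Agent.P243

/-- A triangle in the plane (without two of its sides). -/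
def Tri : Set (ℝ × ℝ) := {u | 0 < u.2 ∧ u.2 < u.1 ∧ u.1 < 1}

theorem volume_Tri : volume Tri = ENNReal.ofReal (1 / 2) := by
  have h1 : Tri = regionBetween (fun _ : ℝ => (0 : ℝ)) (fun x : ℝ => x) (Set.Ioo 0 1) := by
    ext u
    simp only [Tri, regionBetween, Set.mem_setOf_eq, Set.mem_Ioo]
    constructor
    · rintro ⟨h1, h2, h3⟩
      exact ⟨⟨h1.trans h2, h3⟩, h1, h2⟩
    · rintro ⟨⟨h1, h2⟩, h3, h4⟩
      exact ⟨h3, h4, h2⟩
  rw [h1, Measure.volume_eq_prod, volume_regionBetween_eq_integral]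
  · congr 1
    rw [← integral_Ioc_eq_integral_Ioo, ← intervalIntegral.integral_of_le zero_le_one]
    simp
  · exact integrableOn_const (by simp only [Real.volume_Ioo, sub_zero, ENNReal.ofReal_one, ne_eq, ENNReal.one_ne_top, not_false_eq_true])
  · exact (continuous_id.integrableOn_Icc (a := (0 : ℝ)) (b := 1)).mono_set Set.Ioo_subset_Icc_self
  · exact measurableSet_Ioo
  · intro x hx
    exact hx.1.le

theorem measurableSet_Tri : MeasurableSet Tri := by
  refine MeasurableSet.inter ?_ (MeasurableSet.inter ?_ ?_)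
  · exact measurableSet_lt measurable_const measurable_snd
  · exact measurableSet_lt measurable_snd measurable_fst
  · exact measurableSet_lt measurable_fst measurable_const

/-- The affine image of the triangle. -/
def aff (a b c d e f : ℝ) : ℝ × ℝ → ℝ × ℝ :=
  fun u => (a * u.1 + b * u.2 + e, c * u.1 + d * u.2 + f)

theorem volume_aff_Tri (a b c d e f : ℝ) :
    volume (aff a b c d e f '' Tri) = ENNReal.ofReal (|a * d - b * c| / 2) := by
  unfold aff
  rw [volume_affine_image, volume_Tri, ← ENNReal.ofReal_mul (abs_nonneg _)]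
  congr 1
  ring

theorem nullMeasurable_aff_Tri (a b c d e f : ℝ) :
    NullMeasurableSet (aff a b c d e f '' Tri) volume := by
  by_cases hd : a * d - b * c = 0
  · have h0 : volume (aff a b c d e f '' Tri) = 0 := by
      rw [volume_aff_Tri, hd]; simp
    exact NullMeasurableSet.of_null h0
  · have hinj : Function.Injective (aff a b c d e f) := by
      intro u v huv
      simp only [aff, Prod.mk.injEq] at huv
      obtain ⟨h1, h2⟩ := huv
      have h3 : (a * d - b * c) * (u.1 - v.1) = 0 := by linear_combination d * h1 - b * h2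
      have h4 : (a * d - b * c) * (u.2 - v.2) = 0 := by linear_combination a * h2 - c * h1
      have h5 := (mul_eq_zero.mp h3).resolve_left hd
      have h6 := (mul_eq_zero.mp h4).resolve_left hd
      exact Prod.ext (by linarith only [h5]) (by linarith)
    have hc : Continuous (aff a b c d e f) := by
      unfold aff; fun_prop
    exact (measurableSet_Tri.image_of_continuousOn_injOn hc.continuousOn
      hinj.injOn).nullMeasurableSet

theorem isCompact_K0 : IsCompact K0 := isConvexBody_K0.1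

theorem volume_image_K0_ne_top (φ : E3 →L[ℝ] ℝ × ℝ) : volume (φ '' K0) ≠ ∞ :=
  (isCompact_K0.image φ.continuous).measure_lt_top.ne

theorem half_le_of_ofReal_le {φ : E3 →L[ℝ] ℝ × ℝ}
    (h : ENNReal.ofReal (1 / 2) ≤ volume (φ '' K0)) : 1 / 2 ≤ (volume (φ '' K0)).toReal := by
  rwa [← ENNReal.ofReal_le_iff_le_toReal (volume_image_K0_ne_top φ)]

/-- Shadows of the tetrahedron in the transversal directions, normalized coordinates. -/
theorem shadow_transversal (a0 a1 a2 c0 c1 c2 : ℝ) (hδ : a0 * c1 - a1 * c0 = 1) :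
    1 / 2 ≤ (volume (lin a0 a1 a2 c0 c1 c2 '' K0)).toReal := by
  apply half_le_of_ofReal_le
  set p := a2 * c1 - a1 * c2 with hp
  have hsub0 : aff a2 a1 c2 c1 0 0 '' Tri ⊆ lin a0 a1 a2 c0 c1 c2 '' K0 := by
    rintro _ ⟨u, ⟨h1, h2, h3⟩, rfl⟩
    refine ⟨mk3 0 u.2 u.1, ⟨?_, ?_, ?_, ?_⟩, ?_⟩
    · rw [mk3_0]
    · rw [mk3_1]; exact h1.le
    · rw [mk3_0, mk3_2]; linarith
    · rw [mk3_1, mk3_2]; exact h2.le
    · rw [lin_apply, mk3_0, mk3_1, mk3_2, aff]
      refine Prod.ext ?_ ?_ <;> simp only <;> ring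
  have hsub1 : aff (a2 - a0) a1 (c2 - c0) c1 a0 c0 '' Tri ⊆ lin a0 a1 a2 c0 c1 c2 '' K0 := by
    rintro _ ⟨u, ⟨h1, h2, h3⟩, rfl⟩
    refine ⟨mk3 (1 - u.1) u.2 u.1, ⟨?_, ?_, ?_, ?_⟩, ?_⟩
    · rw [mk3_0]; linarith
    · rw [mk3_1]; exact h1.le
    · rw [mk3_0, mk3_2]
    · rw [mk3_1, mk3_2]; exact h2.le
    · rw [lin_apply, mk3_0, mk3_1, mk3_2, aff]
      refine Prod.ext ?_ ?_ <;> simp only <;> ring
  have hv0 : volume (aff a2 a1 c2 c1 0 0 '' Tri) = ENNReal.ofReal (|p| / 2) := by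
    rw [volume_aff_Tri]
  have hv1 : volume (aff (a2 - a0) a1 (c2 - c0) c1 a0 c0 '' Tri)
      = ENNReal.ofReal (|p - 1| / 2) := by
    rw [volume_aff_Tri]
    congr 3
    rw [hp, ← hδ]; ring
  rcases le_or_gt p 0 with hp0 | hp0
  · refine le_trans ?_ (measure_mono hsub1)
    rw [hv1]
    apply ENNReal.ofReal_le_ofReal
    rw [abs_of_nonpos (by linarith)]
    linarith only [hp0]
  rcases le_or_gt 1 p with hp1 | hp1
  · refine le_trans ?_ (measure_mono hsub0)
    rw [hv0]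
    apply ENNReal.ofReal_le_ofReal
    rw [abs_of_nonneg (by linarith)]
    linarith
  refine le_trans ?_ (measure_mono (Set.union_subset hsub0 hsub1))
  rw [measure_union₀ (nullMeasurable_aff_Tri _ _ _ _ _ _), hv0, hv1,
    ← ENNReal.ofReal_add (by positivity) (by positivity)]
  · apply ENNReal.ofReal_le_ofReal
    rw [abs_of_pos hp0, abs_of_neg (by linarith)]
    linarith
  · refine Disjoint.aedisjoint ?_
    rw [Set.disjoint_left]
    rintro z ⟨u, ⟨h1, h2, h3⟩, rfl⟩ ⟨w, ⟨k1, k2, k3⟩, hw⟩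
    simp only [aff, Prod.mk.injEq] at hw
    obtain ⟨e1, e2⟩ := hw
    have e3 : p * u.1 = (1 - w.1) + p * w.1 := by
      rw [hp]
      have hδ' := hδ
      linear_combination (-c1) * e1 + a1 * e2 + (1 - w.1) * hδ'
    nlinarith only [e3, hp0, h3, hp1, k3]

/-- Shadows of the tetrahedron in horizontal directions. -/
theorem shadow_horizontal (s : ℝ) (hs0 : 0 ≤ s) (hs1 : s ≤ 1) :
    1 / 2 ≤ (volume (lin 0 0 1 s (-(1 - s)) 0 '' K0)).toReal := by
  apply half_le_of_ofReal_le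
  have hsub0 : aff 1 0 0 (-(1 - s)) 0 0 '' Tri ⊆ lin 0 0 1 s (-(1 - s)) 0 '' K0 := by
    rintro _ ⟨u, ⟨h1, h2, h3⟩, rfl⟩
    refine ⟨mk3 0 u.2 u.1, ⟨?_, ?_, ?_, ?_⟩, ?_⟩
    · rw [mk3_0]
    · rw [mk3_1]; exact h1.le
    · rw [mk3_0, mk3_2]; linarith
    · rw [mk3_1, mk3_2]; exact h2.le
    · rw [lin_apply, mk3_0, mk3_1, mk3_2, aff]
      refine Prod.ext ?_ ?_ <;> simp only <;> ring
  have hsub1 : aff (-1) 0 0 s 1 0 '' Tri ⊆ lin 0 0 1 s (-(1 - s)) 0 '' K0 := by
    rintro _ ⟨u, ⟨h1, h2, h3⟩, rfl⟩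
    refine ⟨mk3 u.2 0 (1 - u.1), ⟨?_, ?_, ?_, ?_⟩, ?_⟩
    · rw [mk3_0]; exact h1.le
    · rw [mk3_1]
    · rw [mk3_0, mk3_2]; linarith
    · rw [mk3_1, mk3_2]; linarith
    · rw [lin_apply, mk3_0, mk3_1, mk3_2, aff]
      refine Prod.ext ?_ ?_ <;> simp only <;> ring
  have hv0 : volume (aff 1 0 0 (-(1 - s)) 0 0 '' Tri) = ENNReal.ofReal ((1 - s) / 2) := by
    rw [volume_aff_Tri]
    congr 2
    rw [abs_of_nonpos (by linarith)]; ring
  have hv1 : volume (aff (-1) 0 0 s 1 0 '' Tri) = ENNReal.ofReal (s / 2) := by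
    rw [volume_aff_Tri]
    congr 2
    rw [abs_of_nonpos (by linarith)]; ring
  refine le_trans ?_ (measure_mono (Set.union_subset hsub0 hsub1))
  have hae : AEDisjoint volume (aff 1 0 0 (-(1 - s)) 0 0 '' Tri) (aff (-1) 0 0 s 1 0 '' Tri) := by
    rcases eq_or_lt_of_le hs0 with h0 | h0
    · have : volume (aff (-1) 0 0 s 1 0 '' Tri) = 0 := by rw [hv1, ← h0]; simp
      exact measure_mono_null Set.inter_subset_right this
    · refine Disjoint.aedisjoint ?_
      rw [Set.disjoint_left]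
      rintro z ⟨u, ⟨h1, h2, h3⟩, rfl⟩ ⟨w, ⟨k1, k2, k3⟩, hw⟩
      simp only [aff, Prod.mk.injEq] at hw
      obtain ⟨e1, e2⟩ := hw
      nlinarith only [e2, hs1, h1, h0, k1]
  rw [measure_union₀ (nullMeasurable_aff_Tri _ _ _ _ _ _) hae, hv0, hv1,
    ← ENNReal.ofReal_add (by linarith) (by linarith)]
  apply ENNReal.ofReal_le_ofReal
  linarith

end Vale.Agent.P243
end
end

section

section

open MeasureTheory
open scoped ENNReal

namespace Vale.Agent.P243

/-- Area of a rectangle. -/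
theorem volume_rect (x0 x1 y0 y1 : ℝ) (hx : x0 ≤ x1) (hy : y0 ≤ y1) :
    (volume (Set.Icc x0 x1 ×ˢ Set.Icc y0 y1 : Set (ℝ × ℝ))).toReal = (x1 - x0) * (y1 - y0) := by
  rw [Measure.volume_eq_prod, Measure.prod_prod, Real.volume_Icc, Real.volume_Icc,
    ENNReal.toReal_mul, ENNReal.toReal_ofReal (by linarith), ENNReal.toReal_ofReal (by linarith)]

theorem volume_rect_ne_top (x0 x1 y0 y1 : ℝ) :
    volume (Set.Icc x0 x1 ×ˢ Set.Icc y0 y1 : Set (ℝ × ℝ)) ≠ ∞ := by
  rw [Measure.volume_eq_prod, Measure.prod_prod, Real.volume_Icc, Real.volume_Icc]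
  exact ENNReal.mul_ne_top ENNReal.ofReal_ne_top ENNReal.ofReal_ne_top

/-- Locate a point in one of `n` consecutive cells. -/
theorem exists_cell (P0 a P : ℝ) (n : ℕ) (hn : 0 < n) (h0 : P0 ≤ P) (h1 : P ≤ P0 + n * a) :
    ∃ i < n, P0 + i * a ≤ P ∧ P ≤ P0 + (i + 1 : ℝ) * a := by
  induction n with
  | zero => exact absurd hn (lt_irrefl 0)
  | succ n ih =>
    rcases Nat.eq_zero_or_pos n with hz | hz
    · subst hz
      refine ⟨0, Nat.one_pos, ?_, ?_⟩
      · simpa using h0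
      · simpa only [CharP.cast_eq_zero, zero_add, one_mul, Nat.cast_one] using h1
    · rcases le_or_gt P (P0 + n * a) with h2 | h2
      · obtain ⟨i, hi, h3⟩ := ih hz h2
        exact ⟨i, hi.trans (Nat.lt_succ_self n), h3⟩
      · refine ⟨n, Nat.lt_succ_self n, h2.le, ?_⟩
        push_cast at h1
        exact h1

/-- The transversal direction pieces. -/
theorem coverable_tube (β b p a : ℝ) (ha : 0 ≤ a) (hb : 0 ≤ b) :
    Coverable {v | 0 ≤ v 2 ∧ v 2 ≤ 1 ∧ p ≤ v 0 + v 1 - β * v 2 ∧ v 0 + v 1 - β * v 2 ≤ p + a ∧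
      0 ≤ (1 - v 2) * v 1 - v 2 * v 0 - v 2 * (1 - v 2) * β ∧
      (1 - v 2) * v 1 - v 2 * v 0 - v 2 * (1 - v 2) * β ≤ b} (2 * (a * (b + a))) := by
  set φ := lin 1 1 (-β) (-1 / 2) (1 / 2) (-(2 * p + β) / 2) with hφ
  set R : Set (ℝ × ℝ) := Set.Icc p (p + a) ×ˢ Set.Icc (-a / 2 - p / 2) (b + a / 2 - p / 2) with hR
  have hgood : Good φ R := by
    refine ⟨?_, measurableSet_Icc.prod measurableSet_Icc, volume_rect_ne_top _ _ _ _, ?_⟩
    · intro z
      refine ⟨mk3 (z.1 / 2 - z.2) (z.1 / 2 + z.2) 0, ?_⟩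
      rw [hφ, lin_apply, mk3_0, mk3_1, mk3_2]
      refine Prod.ext ?_ ?_ <;> simp only <;> ring
    · rw [hφ]
      exact shadow_transversal _ _ _ _ _ _ (by norm_num)
  refine (Coverable.single hgood).mono ?_ ?_
  · rintro v ⟨h0, h1, h2, h3, h4, h5⟩
    set P := v 0 + v 1 - β * v 2 with hP
    set T := (1 - v 2) * v 1 - v 2 * v 0 - v 2 * (1 - v 2) * β with hT
    have key : -1 / 2 * v 0 + 1 / 2 * v 1 + -(2 * p + β) / 2 * v 2 + p / 2
        = T - (P - p) / 2 * (1 - 2 * v 2) := by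
      rw [hP, hT]; ring
    have h6 : (P - p) / 2 * (1 - 2 * v 2) ≤ a / 2 := by
      have : (P - p) / 2 * (1 - 2 * v 2) ≤ (P - p) / 2 * 1 :=
        mul_le_mul_of_nonneg_left (by linarith only [h0]) (by linarith only [h2])
      linarith only [h3, this]
    have h7 : -(a / 2) ≤ (P - p) / 2 * (1 - 2 * v 2) := by
      have : (P - p) / 2 * (-1) ≤ (P - p) / 2 * (1 - 2 * v 2) :=
        mul_le_mul_of_nonneg_left (by linarith only [h1]) (by linarith only [h2])
      linarith only [h3, this]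
    rw [Set.mem_preimage, hφ, lin_apply, hR, Set.mem_prod, Set.mem_Icc, Set.mem_Icc]
    refine ⟨⟨?_, ?_⟩, ?_, ?_⟩ <;> simp only <;> linarith only [h2, h3, h4, h6, h5, h7]
  · rw [hR, volume_rect _ _ _ _ (by linarith only [ha]) (by linarith only [ha, hb])]
    apply le_of_eq
    ring

/-- All transversal tubes of one layer. -/
theorem coverable_tubes (β b P0 P1 : ℝ) (hP : P0 < P1) (hb : 0 ≤ b) {ε : ℝ} (hε : 0 < ε) :
    Coverable {v | 0 ≤ v 2 ∧ v 2 ≤ 1 ∧ P0 ≤ v 0 + v 1 - β * v 2 ∧ v 0 + v 1 - β * v 2 ≤ P1 ∧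
      0 ≤ (1 - v 2) * v 1 - v 2 * v 0 - v 2 * (1 - v 2) * β ∧
      (1 - v 2) * v 1 - v 2 * v 0 - v 2 * (1 - v 2) * β ≤ b} (2 * ((P1 - P0) * b) + ε) := by
  obtain ⟨n, hn⟩ := exists_nat_gt (2 * (P1 - P0) ^ 2 / ε)
  have hPP : 0 < P1 - P0 := sub_pos.mpr hP
  have hn0 : (0 : ℝ) < n := lt_of_le_of_lt (by positivity) hn
  have hn0' : 0 < n := by exact_mod_cast hn0
  set a := (P1 - P0) / n with ha
  have ha0 : 0 < a := by positivity
  have hna : (n : ℝ) * a = P1 - P0 := by rw [ha]; field_simp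
  have h1 := Coverable.range (S := fun i : ℕ => {v : E3 | 0 ≤ v 2 ∧ v 2 ≤ 1 ∧
      (P0 + i * a) ≤ v 0 + v 1 - β * v 2 ∧ v 0 + v 1 - β * v 2 ≤ (P0 + i * a) + a ∧
      0 ≤ (1 - v 2) * v 1 - v 2 * v 0 - v 2 * (1 - v 2) * β ∧
      (1 - v 2) * v 1 - v 2 * v 0 - v 2 * (1 - v 2) * β ≤ b})
      (c := fun _ => 2 * (a * (b + a))) n
      (fun i _ => coverable_tube β b (P0 + i * a) a ha0.le hb)
  refine h1.mono ?_ ?_
  · rintro v ⟨k0, k1, k2, k3, k4, k5⟩
    obtain ⟨i, hi, h2, h3⟩ := exists_cell P0 a _ n hn0' k2 (by rw [hna]; linarith only [k3])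
    exact ⟨i, hi, k0, k1, h2, by linarith only [h3], k4, k5⟩
  · rw [Finset.sum_const, Finset.card_range, nsmul_eq_mul]
    have h2 : (n : ℝ) * (2 * (a * (b + a))) = 2 * ((P1 - P0) * b) + 2 * (P1 - P0) * a := by
      rw [← hna]; ring
    have h3 : 2 * (P1 - P0) * a ≤ ε := by
      rw [ha, mul_div_assoc', div_le_iff₀ hn0]
      rw [div_lt_iff₀ hε] at hn
      nlinarith only [hn]
    linarith only [h2, h3]

theorem sum_sq_range (n : ℕ) :
    ∑ k ∈ Finset.range n, (k : ℝ) * ((n : ℝ) - k) = ((n : ℝ) ^ 3 - n) / 6 := by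
  have h1 : ∀ m : ℕ, ∑ k ∈ Finset.range m, (k : ℝ) = (m : ℝ) * (m - 1) / 2 := by
    intro m
    induction m with
    | zero => simp
    | succ m ih => rw [Finset.sum_range_succ, ih]; push_cast; ring
  have h2 : ∀ m : ℕ, ∑ k ∈ Finset.range m, (k : ℝ) ^ 2 = (m : ℝ) * (m - 1) * (2 * m - 1) / 6 := by
    intro m
    induction m with
    | zero => simp
    | succ m ih => rw [Finset.sum_range_succ, ih]; push_cast; ring
  have h3 : ∑ k ∈ Finset.range n, (k : ℝ) * ((n : ℝ) - k)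
      = n * ∑ k ∈ Finset.range n, (k : ℝ) - ∑ k ∈ Finset.range n, (k : ℝ) ^ 2 := by
    rw [Finset.mul_sum, ← Finset.sum_sub_distrib]
    exact Finset.sum_congr rfl fun k _ => by ring
  rw [h3, h1, h2]
  ring

/-- One horizontal piece. -/
theorem coverable_horizontal (β D b s δ : ℝ) (hβ : -1 ≤ β) (hβD : β + D ≤ 1) (hD : 0 ≤ D)
    (hs0 : 0 ≤ s) (hδ : 0 ≤ δ) (hs1 : s + δ ≤ 1) (hb : b ≤ D * (s * (1 - s))) :
    Coverable {v | s ≤ v 2 ∧ v 2 ≤ s + δ ∧ 0 ≤ v 0 ∧ 0 ≤ v 1 ∧ v 0 + v 1 ≤ 1 ∧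
      v 2 * (1 - v 2) * β + b ≤ (1 - v 2) * v 1 - v 2 * v 0 ∧
      (1 - v 2) * v 1 - v 2 * v 0 ≤ v 2 * (1 - v 2) * (β + D)}
      (2 * (δ * (D * (s * (1 - s)) - b + 4 * δ))) := by
  set φ := lin 0 0 1 s (-(1 - s)) 0 with hφ
  set R : Set (ℝ × ℝ) := Set.Icc s (s + δ) ×ˢ
    Set.Icc (-(s * (1 - s) * (β + D) + 2 * δ)) (-(s * (1 - s) * β + b - 2 * δ)) with hR
  have hgood : Good φ R := by
    refine ⟨?_, measurableSet_Icc.prod measurableSet_Icc, volume_rect_ne_top _ _ _ _, ?_⟩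
    · intro z
      refine ⟨mk3 z.2 (-z.2) z.1, ?_⟩
      rw [hφ, lin_apply, mk3_0, mk3_1, mk3_2]
      refine Prod.ext ?_ ?_ <;> simp only <;> ring
    · rw [hφ]
      exact shadow_horizontal s hs0 (by linarith)
  refine (Coverable.single hgood).mono ?_ ?_
  · rintro v ⟨h1, h2, h3, h4, h5, h6, h7⟩
    set t := v 2 with ht
    set x := v 0 with hx
    set y := v 1 with hy
    have ht1 : t ≤ 1 := by linarith
    -- comparison of `t (1 - t)` with `s (1 - s)`
    have e1 : t * (1 - t) - s * (1 - s) ≤ δ := by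
      have : t * (1 - t) - s * (1 - s) = (t - s) * (1 - t - s) := by ring
      rw [this]
      have : (t - s) * (1 - t - s) ≤ (t - s) * 1 :=
        mul_le_mul_of_nonneg_left (by linarith) (by linarith)
      linarith
    have e2 : -δ ≤ t * (1 - t) - s * (1 - s) := by
      have : t * (1 - t) - s * (1 - s) = (t - s) * (1 - t - s) := by ring
      rw [this]
      have : (t - s) * (-1) ≤ (t - s) * (1 - t - s) :=
        mul_le_mul_of_nonneg_left (by linarith) (by linarith)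
      linarith
    have e3 : ∀ c : ℝ, -1 ≤ c → c ≤ 1 → -δ ≤ (t * (1 - t) - s * (1 - s)) * c ∧
        (t * (1 - t) - s * (1 - s)) * c ≤ δ := by
      intro c hc0 hc1
      have : |(t * (1 - t) - s * (1 - s)) * c| ≤ δ := by
        rw [abs_mul]
        calc |t * (1 - t) - s * (1 - s)| * |c| ≤ δ * 1 :=
              mul_le_mul (abs_le.mpr ⟨e2, e1⟩) (abs_le.mpr ⟨hc0, hc1⟩) (abs_nonneg _) hδ
          _ = δ := mul_one _
      exact ⟨(abs_le.mp this).1, (abs_le.mp this).2⟩
    obtain ⟨f1, f2⟩ := e3 β hβ (by linarith only [hβD, hD])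
    obtain ⟨g1, g2⟩ := e3 (β + D) (by linarith only [hβ, hD]) hβD
    have e4 : (1 - s) * y - s * x = ((1 - t) * y - t * x) + (t - s) * (x + y) := by ring
    have e5 : (t - s) * (x + y) ≤ δ := by
      calc (t - s) * (x + y) ≤ (t - s) * 1 :=
            mul_le_mul_of_nonneg_left h5 (by linarith only [h1])
        _ ≤ δ := by linarith only [h2]
    have e6 : 0 ≤ (t - s) * (x + y) := mul_nonneg (by linarith only [h1]) (by linarith only [h3, h4])
    rw [Set.mem_preimage, hφ, lin_apply, hR, Set.mem_prod, Set.mem_Icc, Set.mem_Icc]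
    refine ⟨⟨?_, ?_⟩, ?_, ?_⟩
    · simp only; linarith only [h1]
    · simp only; linarith only [h2]
    · simp only
      linarith
    · simp only
      linarith
  · rw [hR, volume_rect _ _ _ _ (by linarith)]
    · apply le_of_eq
      ring
    · nlinarith only [hδ, hb]

/-- All horizontal pieces of one layer. -/
theorem coverable_horizontals (β D m : ℝ) (hβ : -1 ≤ β) (hβD : β + D ≤ 1) (hD : 0 < D)
    (hm0 : 0 < m) (hm1 : m ≤ 1) {ε : ℝ} (hε : 0 < ε) :
    Coverable {v | 0 ≤ v 0 ∧ 0 ≤ v 1 ∧ v 0 + v 1 ≤ 1 ∧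
      v 2 * (1 - v 2) * β + D * (1 - m ^ 2) / 4 ≤ (1 - v 2) * v 1 - v 2 * v 0 ∧
      (1 - v 2) * v 1 - v 2 * v 0 ≤ v 2 * (1 - v 2) * (β + D)} (D * m ^ 3 / 3 + ε) := by
  obtain ⟨n, hn⟩ := exists_nat_gt (8 * m ^ 2 / ε)
  have hn0 : (0 : ℝ) < n := lt_of_le_of_lt (by positivity) hn
  have hn0' : 0 < n := by exact_mod_cast hn0
  set δ := m / n with hδ
  have hδ0 : 0 < δ := by positivity
  have hnδ : (n : ℝ) * δ = m := by rw [hδ]; field_simp
  set b := D * (1 - m ^ 2) / 4 with hb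
  set s : ℕ → ℝ := fun k => (1 - m) / 2 + k * δ with hs
  have hsk : ∀ k : ℕ, D * (s k * (1 - s k)) - b = D * δ ^ 2 * (k * (n - k)) := by
    intro k
    simp only [hs, hb]
    rw [← hnδ]
    ring
  have hs0 : ∀ k : ℕ, 0 ≤ s k := by
    intro k
    simp only [hs]
    have : 0 ≤ (k : ℝ) * δ := by (clear * - hm0 hn0'; positivity)
    linarith only [hm1, this]
  have hs1 : ∀ k < n, s k + δ ≤ 1 := by
    intro k hk
    have h1 : ((k : ℝ) + 1) * δ ≤ n * δ := by
      apply mul_le_mul_of_nonneg_right _ hδ0.le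
      exact_mod_cast hk
    simp only [hs]
    rw [hnδ] at h1
    linarith only [hm1, h1]
  have h1 := Coverable.range (S := fun k : ℕ => {v : E3 | s k ≤ v 2 ∧ v 2 ≤ s k + δ ∧
      0 ≤ v 0 ∧ 0 ≤ v 1 ∧ v 0 + v 1 ≤ 1 ∧
      v 2 * (1 - v 2) * β + b ≤ (1 - v 2) * v 1 - v 2 * v 0 ∧
      (1 - v 2) * v 1 - v 2 * v 0 ≤ v 2 * (1 - v 2) * (β + D)})
      (c := fun k => 2 * (δ * (D * (s k * (1 - s k)) - b + 4 * δ))) n
      (fun k hk => coverable_horizontal β D b (s k) δ hβ hβD hD.le (hs0 k) hδ0.le (hs1 k hk)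
        (by
          have h2 := hsk k
          have h3 : 0 ≤ D * δ ^ 2 * (k * ((n : ℝ) - k)) := by
            have : (k : ℝ) ≤ n := by exact_mod_cast hk.le
            have : 0 ≤ (n : ℝ) - k := by linarith only [this]
            (clear β hβ hβD hm1 hδ hδ0 hnδ b hb s hs hsk hs0 hs1 h2 this; positivity)
          linarith only [h2, h3]))
  refine h1.mono ?_ ?_
  · rintro v ⟨k0, k1, k2, k3, k4⟩
    have h2 : D * (1 - m ^ 2) / 4 ≤ D * (v 2 * (1 - v 2)) := by linarith
    have h3 : (1 - m ^ 2) / 4 ≤ v 2 * (1 - v 2) := by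
      have : D * ((1 - m ^ 2) / 4) ≤ D * (v 2 * (1 - v 2)) := by linarith only [hb, k3, k4]
      exact le_of_mul_le_mul_left this hD
    have h4 : |v 2 - 1 / 2| ≤ m / 2 := by
      apply abs_le_of_sq_le_sq _ (by linarith only [hm0])
      nlinarith only [h3]
    obtain ⟨h5, h6⟩ := abs_le.mp h4
    obtain ⟨k, hk, h7, h8⟩ := exists_cell ((1 - m) / 2) δ (v 2) n hn0' (by linarith only [h5])
      (by rw [hnδ]; linarith only [h6])
    refine ⟨k, hk, ?_, ?_, k0, k1, k2, k3, k4⟩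
    · simp only [hs]; linarith only [h7]
    · simp only [hs]; linarith only [h8]
  · have h2 : ∑ k ∈ Finset.range n, 2 * (δ * (D * (s k * (1 - s k)) - b + 4 * δ))
        = 2 * D * δ ^ 3 * (((n : ℝ) ^ 3 - n) / 6) + 8 * m * δ := by
      rw [← sum_sq_range, Finset.mul_sum]
      have h3 : 8 * m * δ = ∑ _k ∈ Finset.range n, 8 * δ ^ 2 := by
        rw [Finset.sum_const, Finset.card_range, nsmul_eq_mul, ← hnδ]
        ring
      rw [h3, ← Finset.sum_add_distrib]
      refine Finset.sum_congr rfl fun k _ => ?_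
      rw [hsk k]
      ring
    have h4 : 2 * D * δ ^ 3 * (((n : ℝ) ^ 3 - n) / 6) ≤ D * m ^ 3 / 3 := by
      rw [← hnδ]
      have : 0 ≤ D * δ ^ 3 * n := by positivity
      nlinarith only [this]
    have h5 : 8 * m * δ ≤ ε := by
      rw [hδ, mul_div_assoc', div_le_iff₀ hn0]
      rw [div_lt_iff₀ hε] at hn
      nlinarith only [hn]
    rw [h2]
    linarith only [h4, h5]

end Vale.Agent.P243
end
end

section

section

open MeasureTheory
open scoped ENNReal

namespace Vale.Agent.P243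

/-- The part of the tetrahedron between two doubly ruled sheets. -/
def Layer (β D : ℝ) : Set E3 := {v | 0 ≤ v 2 ∧ v 2 ≤ 1 ∧ ∃ p q : ℝ, 0 ≤ p ∧ p ≤ 1 ∧ 0 ≤ q ∧ q ≤ 1 ∧
  v 0 = (1 - v 2) * p ∧ v 1 = v 2 * q ∧ β ≤ q - p ∧ q - p ≤ β + D}

theorem coverable_layer (β D m P0 P1 : ℝ) (hβ : -1 ≤ β) (hβD : β + D ≤ 1) (hD : 0 < D)
    (hm0 : 0 < m) (hm1 : m ≤ 1) (hP : P0 < P1) (hP0 : P0 ≤ 0 ∨ P0 ≤ -(β + D))
    (hP1 : 1 + D ≤ P1 ∨ 1 - β + D ≤ P1) {ε : ℝ} (hε : 0 < ε) :
    Coverable (Layer β D) (2 * ((P1 - P0) * (D * (1 - m ^ 2) / 4)) + D * m ^ 3 / 3 + ε) := by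
  have hb : 0 ≤ D * (1 - m ^ 2) / 4 := by
    have : 0 ≤ 1 - m ^ 2 := by nlinarith only [hm1, hm0]
    (clear * - hD this; positivity)
  have h1 := coverable_tubes β (D * (1 - m ^ 2) / 4) P0 P1 hP hb (half_pos hε)
  have h2 := coverable_horizontals β D m hβ hβD hD hm0 hm1 (half_pos hε)
  refine (h1.union h2).mono ?_ (by linarith only [])
  rintro v ⟨ht0, ht1, p, q, hp0, hp1, hq0, hq1, hx, hy, hr0, hr1⟩
  have hT : (1 - v 2) * v 1 - v 2 * v 0 - v 2 * (1 - v 2) * β
      = v 2 * (1 - v 2) * (q - p - β) := by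
    rw [hx, hy]; ring
  have htt : 0 ≤ v 2 * (1 - v 2) := mul_nonneg ht0 (by linarith only [ht1])
  have hT0 : 0 ≤ v 2 * (1 - v 2) * (q - p - β) := mul_nonneg htt (by linarith only [hr0])
  rcases le_or_gt (v 2 * (1 - v 2) * (q - p - β)) (D * (1 - m ^ 2) / 4) with hc | hc
  · refine Or.inl ⟨ht0, ht1, ?_, ?_, ?_, ?_⟩
    · have h3 : v 0 + v 1 - β * v 2 = p + v 2 * (q - p - β) := by rw [hx, hy]; ring
      have h4 : 0 ≤ v 2 * (q - p - β) := mul_nonneg ht0 (by linarith only [hr0])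
      rw [h3]
      rcases hP0 with h5 | h5 <;> linarith only [hp0, h4, h5, hq0, hr1]
    · have h3 : v 0 + v 1 - β * v 2 = p + v 2 * (q - p - β) := by rw [hx, hy]; ring
      have h4 : v 2 * (q - p - β) ≤ 1 * (q - p - β) :=
        mul_le_mul_of_nonneg_right ht1 (by linarith only [hr0])
      rw [h3]
      rcases hP1 with h5 | h5 <;> linarith only [hD, hq1, h4, h5, hp1, hr1]
    · rw [hT]; exact hT0
    · rw [hT]; exact hc
  · refine Or.inr ⟨?_, ?_, ?_, ?_, ?_⟩
    · rw [hx]; exact mul_nonneg (by linarith only [ht1]) hp0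
    · rw [hy]; exact mul_nonneg ht0 hq0
    · have h3 : (1 - v 2) * p ≤ (1 - v 2) * 1 := mul_le_mul_of_nonneg_left hp1 (by linarith only [ht1])
      have h4 : v 2 * q ≤ v 2 * 1 := mul_le_mul_of_nonneg_left hq1 ht0
      rw [hx, hy]; linarith only [h3, h4]
    · linarith only [hT, hc]
    · have h3 : v 2 * (1 - v 2) * (q - p - β) ≤ v 2 * (1 - v 2) * D :=
        mul_le_mul_of_nonneg_left (by linarith only [hr1]) htt
      linarith only [hT, h3]

theorem sum_pow_one (c : ℝ) (M : ℕ) :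
    ∑ j ∈ Finset.range M, (c - j) = M * c - M * (M - 1) / 2 := by
  induction M with
  | zero => simp
  | succ M ih => rw [Finset.sum_range_succ, ih]; push_cast; ring

theorem sum_pow_three (c : ℝ) (M : ℕ) :
    ∑ j ∈ Finset.range M, (c - j) ^ 3 = c ^ 3 * M - 3 * c ^ 2 * (M * (M - 1) / 2)
      + 3 * c * (M * (M - 1) * (2 * M - 1) / 6) - (M * (M - 1) / 2) ^ 2 := by
  induction M with
  | zero => simp
  | succ M ih => rw [Finset.sum_range_succ, ih]; push_cast; ring

theorem coverable_K0 {ε : ℝ} (hε : 0 < ε) : Coverable K0 (5 / 12 + ε) := by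
  obtain ⟨N, hN⟩ := exists_nat_gt (4 / ε)
  have hN0 : (0 : ℝ) < N := lt_of_le_of_lt (by positivity) hN
  have hN0' : 0 < N := by exact_mod_cast hN0
  set D : ℝ := 1 / N with hD
  have hD0 : 0 < D := by positivity
  have hND : (N : ℝ) * D = 1 := by rw [hD]; field_simp
  have hDε : D ≤ ε / 4 := by
    rw [hD, div_le_div_iff₀ hN0 (by norm_num)]
    rw [div_lt_iff₀ hε] at hN
    linarith only [hN]
  set ε' : ℝ := ε * D / 4 with hε'
  have hε'0 : 0 < ε' := by positivity
  set m : ℕ → ℝ := fun j => ((N : ℝ) - j) * D with hm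
  have hm1 : ∀ j : ℕ, m j = 1 - j * D := by
    intro j; simp only [hm]; rw [sub_mul, hND]
  have hmpos : ∀ j < N, D ≤ m j := by
    intro j hj
    have h1 : (j : ℝ) + 1 ≤ N := by exact_mod_cast hj
    simp only [hm]
    nlinarith only [hND, h1]
  have hmle : ∀ j : ℕ, m j ≤ 1 := by
    intro j
    rw [hm1]
    have : 0 ≤ (j : ℝ) * D := by (clear * - hN0'; positivity)
    linarith only [this]
  set c : ℕ → ℝ := fun j => 2 * ((m j + D) * (D * (1 - m j ^ 2) / 4)) + D * m j ^ 3 / 3 + ε'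
    with hc
  have hpos := Coverable.range (S := fun j : ℕ => Layer (j * D) D) (c := c) N (by
    intro j hj
    have h1 := hmpos j hj
    have h2 := hm1 j
    have h3 : 0 ≤ (j : ℝ) * D := by (clear * - hN0'; positivity)
    have h4 := coverable_layer (j * D) D (m j) 0 (m j + D) (by linarith only [h3]) (by linarith only [hND, h1]) hD0
      (by linarith only [hD0, h1]) (hmle j) (by linarith only [hD0, h1]) (Or.inl le_rfl) (Or.inr (by linarith only [hND])) hε'0
    refine h4.mono subset_rfl ?_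
    simp only [hc]
    apply le_of_eq
    ring)
  have hneg := Coverable.range (S := fun j : ℕ => Layer (-((j + 1 : ℝ) * D)) D) (c := c) N (by
    intro j hj
    have h1 := hmpos j hj
    have h2 := hm1 j
    have h3 : 0 ≤ (j : ℝ) * D := by (clear * - hN0'; positivity)
    have h4 := coverable_layer (-((j + 1 : ℝ) * D)) D (m j) (j * D) (1 + D) (by linarith only [hND, h1])
      (by linarith only [h3]) hD0 (by linarith only [hD0, h1]) (hmle j) (by linarith only [hD0, hND, h1]) (Or.inr (by linarith only []))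
      (Or.inl le_rfl) hε'0
    refine h4.mono subset_rfl ?_
    simp only [hc]
    apply le_of_eq
    rw [h2]
    ring)
  refine (hpos.union hneg).mono ?_ ?_
  · rintro v ⟨hx0, hy0, hx1, hy1⟩
    have ht0 : 0 ≤ v 2 := hy0.trans hy1
    have ht1 : v 2 ≤ 1 := by linarith only [hx0, hx1]
    have hp : v 0 = (1 - v 2) * (v 0 / (1 - v 2)) := by
      rcases eq_or_ne (1 - v 2) 0 with h | h
      · rw [h, zero_mul]; linarith only [hx0, hx1, h]
      · (clear * - h; field_simp)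
    have hq : v 1 = v 2 * (v 1 / v 2) := by
      rcases eq_or_ne (v 2) 0 with h | h
      · rw [h, zero_mul]; linarith only [hy0, hy1, h]
      · (clear * - h; field_simp)
    set p := v 0 / (1 - v 2) with hpdef
    set q := v 1 / v 2 with hqdef
    have hp0 : 0 ≤ p := div_nonneg hx0 (by linarith only [hx0, hx1])
    have hp1 : p ≤ 1 := div_le_one_of_le₀ hx1 (by linarith only [hx0, hx1])
    have hq0 : 0 ≤ q := div_nonneg hy0 ht0
    have hq1 : q ≤ 1 := div_le_one_of_le₀ hy1 ht0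
    rcases le_or_gt 0 (q - p) with hqp | hqp
    · obtain ⟨j, hj, h1, h2⟩ := exists_cell 0 D (q - p) N hN0' hqp (by rw [hND]; linarith only [hp0, hq1])
      exact Or.inl ⟨j, hj, ht0, ht1, p, q, hp0, hp1, hq0, hq1, hp, hq, by linarith only [h1], by linarith only [h2]⟩
    · obtain ⟨j, hj, h1, h2⟩ := exists_cell 0 D (p - q) N hN0' (by linarith only [hqp])
        (by rw [hND]; linarith only [hp1, hq0])
      exact Or.inr ⟨j, hj, ht0, ht1, p, q, hp0, hp1, hq0, hq1, hp, hq, by linarith only [h2], by linarith only [h1]⟩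
  · have h1 : ∀ j ∈ Finset.range N, c j ≤ D * (m j / 2 - m j ^ 3 / 6) + D ^ 2 / 2 + ε' := by
      intro j hj
      simp only [hc]
      have h2 := hmpos j (Finset.mem_range.mp hj)
      have h3 : 0 ≤ D ^ 2 * m j ^ 2 := by (clear * - hN0'; positivity)
      nlinarith only []
    have h2 := Finset.sum_le_sum h1
    have h3 : ∑ j ∈ Finset.range N, (D * (m j / 2 - m j ^ 3 / 6) + D ^ 2 / 2 + ε')
        = D ^ 2 / 2 * (∑ j ∈ Finset.range N, ((N : ℝ) - j))
          - D ^ 4 / 6 * (∑ j ∈ Finset.range N, ((N : ℝ) - j) ^ 3) + N * (D ^ 2 / 2 + ε') := by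
      have h4 : (N : ℝ) * (D ^ 2 / 2 + ε') = ∑ _j ∈ Finset.range N, (D ^ 2 / 2 + ε') := by
        rw [Finset.sum_const, Finset.card_range, nsmul_eq_mul]
      rw [h4, Finset.mul_sum, Finset.mul_sum, ← Finset.sum_sub_distrib,
        ← Finset.sum_add_distrib]
      refine Finset.sum_congr rfl fun j _ => ?_
      simp only [hm]
      ring
    rw [h3, sum_pow_one, sum_pow_three] at h2
    have h4 : D ^ 2 / 2 * ((N : ℝ) * N - N * (N - 1) / 2)
          - D ^ 4 / 6 * ((N : ℝ) ^ 3 * N - 3 * (N : ℝ) ^ 2 * (N * (N - 1) / 2)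
            + 3 * N * (N * (N - 1) * (2 * N - 1) / 6) - (N * (N - 1) / 2) ^ 2)
          + N * (D ^ 2 / 2 + ε')
        = 5 / 24 + D / 6 - D ^ 2 / 24 + D / 2 + ε / 4 := by
      rw [hε', hD]
      field_simp
      ring
    rw [h4] at h2
    have h5 : 0 ≤ D ^ 2 := sq_nonneg D
    linarith only [hD0, hDε, h2, h5]

/-- Coverings of the tetrahedron `K0` by finitely many cylinders with relative area close to
`5 / 12`, in coordinates. -/
theorem cover_exists (ε : ℝ) (hε : 0 < ε) :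
    ∃ (n : ℕ) (φ : Fin n → (E3 →L[ℝ] ℝ × ℝ)) (R : Fin n → Set (ℝ × ℝ)),
      (∀ i, Function.Surjective (φ i)) ∧ (∀ i, MeasurableSet (R i)) ∧
      (∀ i, volume (R i) ≠ ⊤) ∧ (∀ i, 1 / 2 ≤ (volume (φ i '' K0)).toReal) ∧
      K0 ⊆ (⋃ i, φ i ⁻¹' R i) ∧ ∑ i, 2 * (volume (R i)).toReal ≤ 5 / 12 + ε :=
  (coverable_K0 hε).exists_fin

/-- `r3 ≤ 5 / 12`. -/
theorem exists_covering_K0 (ε : ℝ) (hε : 0 < ε) :
    ∃ C : CylinderCovering K0, C.relArea ≤ 5 / 12 + ε := by
  obtain ⟨n, φ, R, h1, h2, h3, h4, h5, h6⟩ := cover_exists ε hε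
  exact relArea_le_of_maps φ R h1 h2 h3 h4 h5 h6

end Vale.Agent.P243
end
end

section

section

open MeasureTheory
open scoped ENNReal RealInnerProductSpace

namespace Vale.Agent.P243

/-- The determinant of three vectors of space. -/
def det3 (a b u : E3) : ℝ :=
  a 0 * (b 1 * u 2 - b 2 * u 1) - a 1 * (b 0 * u 2 - b 2 * u 0) + a 2 * (b 0 * u 1 - b 1 * u 0)

instance factFinrankE3 : Fact (Module.finrank ℝ E3 = 2 + 1) := ⟨by simp⟩

theorem proj_add (u a b : E3) : proj u (a + b) = proj u a + proj u b :=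
  map_add (perp u).orthogonalProjectionOnto a b

theorem proj_smul (u : E3) (c : ℝ) (a : E3) : proj u (c • a) = c • proj u a :=
  map_smul (perp u).orthogonalProjectionOnto c a

theorem proj_coe {u : E3} (hu : ‖u‖ = 1) (a : E3) : (proj u a : E3) = a - ⟪u, a⟫ • u := by
  have h : (proj u a : E3) = (perp u).starProjection a := rfl
  rw [h, Submodule.starProjection_orthogonal_val, Submodule.starProjection_unit_singleton ℝ hu]

theorem inner_proj {u : E3} (hu : ‖u‖ = 1) (a b : E3) :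
    ⟪proj u a, proj u b⟫ = ⟪a, b⟫ - ⟪u, a⟫ * ⟪u, b⟫ := by
  have h : ⟪proj u a, proj u b⟫ = ⟪(proj u a : E3), (proj u b : E3)⟫ := rfl
  rw [h, proj_coe hu, proj_coe hu]
  simp only [inner_sub_left, inner_sub_right, inner_smul_left, inner_smul_right,
    real_inner_self_eq_norm_sq, hu]
  rw [real_inner_comm u a]
  simp

theorem inner_E3 (a b : E3) : ⟪a, b⟫ = a 0 * b 0 + a 1 * b 1 + a 2 * b 2 := by
  simp only [PiLp.inner_apply, Fin.sum_univ_three, RCLike.inner_apply, conj_trivial]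
  ring

/-- The coordinates in an orthonormal basis of `perp u` have the expected determinant. -/
theorem sq_det_eq {u : E3} (hu : ‖u‖ = 1) (f : OrthonormalBasis (Fin 2) ℝ (perp u)) (a b : E3) :
    (f.repr (proj u a) 0 * f.repr (proj u b) 1 - f.repr (proj u b) 0 * f.repr (proj u a) 1) ^ 2
      = det3 a b u ^ 2 := by
  have key : ∀ x y : perp u, ⟪x, y⟫ = f.repr x 0 * f.repr y 0 + f.repr x 1 * f.repr y 1 := by
    intro x y
    have h := (f.repr.inner_map_map x y).symm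
    rw [h]
    simp only [PiLp.inner_apply, Fin.sum_univ_two, RCLike.inner_apply, conj_trivial]
    ring
  have haa := key (proj u a) (proj u a)
  have hbb := key (proj u b) (proj u b)
  have hab := key (proj u a) (proj u b)
  rw [inner_proj hu] at haa hbb hab
  have huu : u 0 * u 0 + u 1 * u 1 + u 2 * u 2 = 1 := by
    rw [← inner_E3, real_inner_self_eq_norm_sq, hu]; norm_num
  rw [inner_E3, inner_E3] at haa hbb
  rw [inner_E3, inner_E3, inner_E3] at hab
  set x0 := f.repr (proj u a) 0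
  set x1 := f.repr (proj u a) 1
  set y0 := f.repr (proj u b) 0
  set y1 := f.repr (proj u b) 1
  have h1 : (x0 * y1 - y0 * x1) ^ 2
      = (x0 * x0 + x1 * x1) * (y0 * y0 + y1 * y1) - (x0 * y0 + x1 * y1) ^ 2 := by ring
  rw [h1, ← haa, ← hbb, ← hab]
  unfold det3
  linear_combination (-((a 0 * a 0 + a 1 * a 1 + a 2 * a 2) * (b 0 * b 0 + b 1 * b 1 + b 2 * b 2)
    - (a 0 * b 0 + a 1 * b 1 + a 2 * b 2) ^ 2)) * huu

/-- Coordinates in the plane `perp u`, as a measurable equivalence preserving area. -/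
theorem exists_coords {u : E3} (hu : ‖u‖ = 1) :
    ∃ (f : OrthonormalBasis (Fin 2) ℝ (perp u)) (G : perp u ≃ᵐ ℝ × ℝ),
      MeasurePreserving G volume volume ∧ ∀ y, G y = (f.repr y 0, f.repr y 1) := by
  have hu0 : u ≠ 0 := by
    intro h
    rw [h] at hu
    simp at hu
  let f : OrthonormalBasis (Fin 2) ℝ (perp u) :=
    OrthonormalBasis.fromOrthogonalSpanSingleton (𝕜 := ℝ) 2 hu0
  refine ⟨f, (f.measurableEquiv.trans (MeasurableEquiv.toLp 2 (Fin 2 → ℝ)).symm).trans
    MeasurableEquiv.finTwoArrow, ?_, ?_⟩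
  · exact (volume_preserving_finTwoArrow ℝ).comp
      ((EuclideanSpace.volume_preserving_symm_measurableEquiv_toLp (Fin 2)).comp
        f.measurePreserving_measurableEquiv)
  · intro y
    rfl

/-- The linear map of the plane with prescribed columns. -/
def colMap (p q : ℝ × ℝ) : ℝ × ℝ →ₗ[ℝ] ℝ × ℝ where
  toFun s := s.1 • p + s.2 • q
  map_add' s t := by
    ext <;> simp <;> ring
  map_smul' c s := by
    ext <;> simp <;> ring

theorem det_colMap (p q : ℝ × ℝ) : LinearMap.det (colMap p q) = p.1 * q.2 - q.1 * p.2 := by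
  rw [← LinearMap.det_toMatrix (Module.Basis.finTwoProd ℝ), Matrix.det_fin_two]
  simp only [colMap, Fin.isValue, LinearMap.toMatrix_apply, Module.Basis.finTwoProd_zero, LinearMap.coe_mk, AddHom.coe_mk, one_smul, zero_smul, add_zero, Module.Basis.coe_finTwoProd_repr, Nat.succ_eq_add_one, Nat.reduceAdd, Matrix.cons_val_zero, Module.Basis.finTwoProd_one, zero_add, Matrix.cons_val_one, Matrix.cons_val_fin_one]

/-- Area of a parametrized subset of the plane `perp u`. -/
theorem volume_image_param {u : E3} (hu : ‖u‖ = 1) (a b : E3) (S : Set (ℝ × ℝ)) :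
    volume ((fun s : ℝ × ℝ => proj u (s.1 • a + s.2 • b)) '' S)
      = ENNReal.ofReal |det3 a b u| * volume S := by
  obtain ⟨f, G, hG, hGf⟩ := exists_coords hu
  have h1 : volume ((fun s : ℝ × ℝ => proj u (s.1 • a + s.2 • b)) '' S)
      = volume (G '' ((fun s : ℝ × ℝ => proj u (s.1 • a + s.2 • b)) '' S)) := by
    rw [MeasurableEquiv.image_eq_preimage_symm]
    exact (hG.symm.measure_preimage_equiv _).symm
  rw [h1, ← Set.image_comp]
  have h2 : (G ∘ fun s : ℝ × ℝ => proj u (s.1 • a + s.2 • b))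
      = colMap (f.repr (proj u a) 0, f.repr (proj u a) 1)
          (f.repr (proj u b) 0, f.repr (proj u b) 1) := by
    funext s
    simp only [Function.comp, hGf, proj_add, proj_smul, map_add, map_smul]
    rfl
  rw [h2, Measure.addHaar_image_linearMap, det_colMap]
  have h3 := sq_det_eq hu f a b
  rw [sq_eq_sq_iff_abs_eq_abs] at h3
  rw [h3]

end Vale.Agent.P243
end
end

section

section

open MeasureTheory
open scoped ENNReal RealInnerProductSpace

namespace Vale.Agent.P243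

/-- The standard triangle. -/
def tri : Set (ℝ × ℝ) := {s | 0 ≤ s.1 ∧ 0 ≤ s.2 ∧ s.1 + s.2 ≤ 1}

/-- The standard triangle without its bottom side. -/
def triPos : Set (ℝ × ℝ) := {s | 0 ≤ s.1 ∧ 0 < s.2 ∧ s.1 + s.2 ≤ 1}

theorem measurableSet_tri : MeasurableSet tri := by
  have h1 : Measurable fun s : ℝ × ℝ => s.1 := measurable_fst
  have h2 : Measurable fun s : ℝ × ℝ => s.2 := measurable_snd
  exact (measurableSet_le measurable_const h1).inter
    ((measurableSet_le measurable_const h2).inter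
      (measurableSet_le (h1.add h2) measurable_const))

theorem measurableSet_triPos : MeasurableSet triPos := by
  have h1 : Measurable fun s : ℝ × ℝ => s.1 := measurable_fst
  have h2 : Measurable fun s : ℝ × ℝ => s.2 := measurable_snd
  exact (measurableSet_le measurable_const h1).inter
    ((measurableSet_lt measurable_const h2).inter
      (measurableSet_le (h1.add h2) measurable_const))

theorem isCompact_tri : IsCompact tri := by
  refine Metric.isCompact_of_isClosed_isBounded ?_ ?_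
  · have h1 : Continuous fun s : ℝ × ℝ => s.1 := continuous_fst
    have h2 : Continuous fun s : ℝ × ℝ => s.2 := continuous_snd
    exact (isClosed_le continuous_const h1).inter
      ((isClosed_le continuous_const h2).inter
        (isClosed_le (h1.add h2) continuous_const))
  · refine (Metric.isBounded_Icc ((0 : ℝ), (0 : ℝ)) ((1 : ℝ), (1 : ℝ))).subset ?_
    rintro ⟨x, y⟩ ⟨h1, h2, h3⟩
    simp only at h1 h2 h3
    exact ⟨⟨h1, h2⟩, ⟨by simp only; linarith, by simp only; linarith⟩⟩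

theorem lintegral_aux : ∫⁻ x in Set.Icc (0 : ℝ) 1, ENNReal.ofReal (1 - x) = ENNReal.ofReal (1 / 2) := by
  rw [← ofReal_integral_eq_lintegral_ofReal]
  · rw [integral_Icc_eq_integral_Ioc, ← intervalIntegral.integral_of_le zero_le_one]
    congr 1
    rw [intervalIntegral.integral_sub (by simp) (by simp)]
    simp only [intervalIntegral.integral_const, sub_zero, smul_eq_mul, mul_one, integral_id, one_pow, ne_eq, OfNat.ofNat_ne_zero, not_false_eq_true, zero_pow, one_div]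
    norm_num
  · exact (continuous_const.sub continuous_id).integrableOn_Icc
  · rw [Filter.EventuallyLE, ae_restrict_iff' measurableSet_Icc]
    exact Filter.Eventually.of_forall fun x hx => by
      simp only [Pi.zero_apply]
      linarith [hx.2]

theorem volume_tri : volume tri = ENNReal.ofReal (1 / 2) := by
  rw [Measure.volume_eq_prod, Measure.prod_apply measurableSet_tri, ← lintegral_aux,
    ← lintegral_indicator measurableSet_Icc]
  refine lintegral_congr fun x => ?_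
  by_cases hx : x ∈ Set.Icc (0 : ℝ) 1
  · rw [Set.indicator_of_mem hx]
    have : Prod.mk x ⁻¹' tri = Set.Icc 0 (1 - x) := by
      ext y
      simp only [tri, Set.mem_preimage, Set.mem_setOf_eq, Set.mem_Icc]
      constructor
      · rintro ⟨_, h2, h3⟩
        exact ⟨h2, by linarith⟩
      · rintro ⟨h2, h3⟩
        exact ⟨hx.1, h2, by linarith⟩
    rw [this, Real.volume_Icc, sub_zero]
  · rw [Set.indicator_of_notMem hx]
    have : Prod.mk x ⁻¹' tri = ∅ := by
      ext y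
      simp only [tri, Set.mem_preimage, Set.mem_setOf_eq, Set.mem_empty_iff_false, iff_false]
      rintro ⟨h1, h2, h3⟩
      exact hx ⟨h1, by linarith⟩
    rw [this, measure_empty]

theorem volume_triPos : volume triPos = ENNReal.ofReal (1 / 2) := by
  rw [Measure.volume_eq_prod, Measure.prod_apply measurableSet_triPos, ← lintegral_aux,
    ← lintegral_indicator measurableSet_Icc]
  refine lintegral_congr fun x => ?_
  by_cases hx : x ∈ Set.Icc (0 : ℝ) 1
  · rw [Set.indicator_of_mem hx]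
    have : Prod.mk x ⁻¹' triPos = Set.Ioc 0 (1 - x) := by
      ext y
      simp only [triPos, Set.mem_preimage, Set.mem_setOf_eq, Set.mem_Ioc]
      constructor
      · rintro ⟨_, h2, h3⟩
        exact ⟨h2, by linarith⟩
      · rintro ⟨h2, h3⟩
        exact ⟨hx.1, h2, by linarith⟩
    rw [this, Real.volume_Ioc, sub_zero]
  · rw [Set.indicator_of_notMem hx]
    have : Prod.mk x ⁻¹' triPos = ∅ := by
      ext y
      simp only [triPos, Set.mem_preimage, Set.mem_setOf_eq, Set.mem_empty_iff_false, iff_false]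
      rintro ⟨h1, h2, h3⟩
      exact hx ⟨h1, by linarith⟩
    rw [this, measure_empty]

end Vale.Agent.P243
end
end

section

section

open MeasureTheory
open scoped ENNReal RealInnerProductSpace

namespace Vale.Agent.P243

/-- The vector with given coordinates. -/
noncomputable def vec (x y z : ℝ) : E3 := WithLp.toLp 2 ![x, y, z]

@[simp] theorem vec_zero (x y z : ℝ) : vec x y z 0 = x := rfl
@[simp] theorem vec_one (x y z : ℝ) : vec x y z 1 = y := rfl
@[simp] theorem vec_two (x y z : ℝ) : vec x y z 2 = z := rfl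

theorem continuous_proj (u : E3) : Continuous (proj u) :=
  (perp u).orthogonalProjectionOnto.continuous

theorem volume_shadow_ne_top {K : Set E3} (hK : IsCompact K) (u : E3) :
    volume (proj u '' K) ≠ ∞ :=
  (hK.image (continuous_proj u)).measure_lt_top.ne

theorem det3_smul_add (a b u : E3) (s r : ℝ) :
    det3 a (s • a + r • b) u = r * det3 a b u := by
  simp only [det3, PiLp.add_apply, PiLp.smul_apply, smul_eq_mul]
  ring

theorem det3_proj {u : E3} (hu : ‖u‖ = 1) (a x : E3) : det3 a (proj u x : E3) u = det3 a x u := by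
  rw [proj_coe hu]
  simp only [det3, PiLp.sub_apply, PiLp.smul_apply, smul_eq_mul]
  ring

theorem le_shadow_of_subset {K : Set E3} (hK : IsCompact K) {u : E3} {S : Set (perp u)} {c : ℝ}
    (hc : ENNReal.ofReal c ≤ volume S) (hS : S ⊆ proj u '' K) : c ≤ shadowArea K u := by
  unfold shadowArea
  have h := hc.trans (measure_mono hS)
  exact (ENNReal.ofReal_le_iff_le_toReal (volume_shadow_ne_top hK u)).mp h

theorem shadow_ge_tri {K : Set E3} (hK : IsCompact K) {u : E3} (hu : ‖u‖ = 1) (P a b : E3)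
    (h : ∀ s ∈ tri, P + (s.1 • a + s.2 • b) ∈ K) : |det3 a b u| / 2 ≤ shadowArea K u := by
  refine le_shadow_of_subset hK (S := (fun y => proj u P + y) ''
    ((fun s : ℝ × ℝ => proj u (s.1 • a + s.2 • b)) '' tri)) ?_ ?_
  · rw [Set.image_add_left, measure_preimage_add, volume_image_param hu, volume_tri,
      ← ENNReal.ofReal_mul (abs_nonneg _)]
    apply le_of_eq
    congr 1
    ring
  · rintro _ ⟨_, ⟨s, hs, rfl⟩, rfl⟩
    exact ⟨_, h s hs, by rw [proj_add]⟩

theorem shadow_ge_two {K : Set E3} (hK : IsCompact K) {u : E3} (hu : ‖u‖ = 1) (P a b b' : E3)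
    (h : ∀ s ∈ tri, P + (s.1 • a + s.2 • b) ∈ K) (h' : ∀ s ∈ tri, P + (s.1 • a + s.2 • b') ∈ K)
    (hd : 0 < det3 a b u) (hd' : det3 a b' u < 0) :
    det3 a b u / 2 - det3 a b' u / 2 ≤ shadowArea K u := by
  set S1 : Set (perp u) := (fun s : ℝ × ℝ => proj u (s.1 • a + s.2 • b)) '' triPos with hS1
  set S2 : Set (perp u) := (fun s : ℝ × ℝ => proj u (s.1 • a + s.2 • b')) '' triPos with hS2
  have hsub : triPos ⊆ tri := fun s hs => ⟨hs.1, hs.2.1.le, hs.2.2⟩
  set A : Set (perp u) := {y | 0 < det3 a (y : E3) u} with hA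
  have hAm : MeasurableSet A := by
    have hcont : Continuous fun y : perp u => det3 a (y : E3) u := by
      unfold det3
      fun_prop
    exact (isOpen_lt continuous_const hcont).measurableSet
  have h1 : S1 ⊆ A := by
    rintro _ ⟨s, hs, rfl⟩
    change 0 < det3 a (proj u (s.1 • a + s.2 • b) : E3) u
    rw [det3_proj hu, det3_smul_add]
    exact mul_pos hs.2.1 hd
  have h2 : S2 ⊆ Aᶜ := by
    rintro _ ⟨s, hs, rfl⟩
    change ¬ (0 < det3 a (proj u (s.1 • a + s.2 • b') : E3) u)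
    rw [det3_proj hu, det3_smul_add, not_lt]
    exact (mul_neg_of_pos_of_neg hs.2.1 hd').le
  refine le_shadow_of_subset hK (S := (fun y => proj u P + y) '' (S1 ∪ S2)) ?_ ?_
  · rw [Set.image_add_left, measure_preimage_add, ← measure_inter_add_diff (S1 ∪ S2) hAm]
    have h3 : S1 ⊆ (S1 ∪ S2) ∩ A := fun y hy => ⟨Or.inl hy, h1 hy⟩
    have h4 : S2 ⊆ (S1 ∪ S2) \ A := fun y hy => ⟨Or.inr hy, h2 hy⟩
    refine le_trans ?_ (add_le_add (measure_mono h3) (measure_mono h4))
    rw [hS1, hS2, volume_image_param hu, volume_image_param hu, volume_triPos,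
      ← ENNReal.ofReal_mul (abs_nonneg _), ← ENNReal.ofReal_mul (abs_nonneg _),
      ← ENNReal.ofReal_add (by positivity) (by positivity), abs_of_pos hd, abs_of_neg hd']
    apply le_of_eq
    congr 1
    ring
  · rintro _ ⟨_, ⟨s, hs, rfl⟩ | ⟨s, hs, rfl⟩, rfl⟩
    · exact ⟨_, h s (hsub hs), by rw [proj_add]⟩
    · exact ⟨_, h' s (hsub hs), by rw [proj_add]⟩

theorem shadow_ge_pair {K : Set E3} (hK : IsCompact K) {u : E3} (hu : ‖u‖ = 1) (P a b b' : E3)
    (h : ∀ s ∈ tri, P + (s.1 • a + s.2 • b) ∈ K) (h' : ∀ s ∈ tri, P + (s.1 • a + s.2 • b') ∈ K) :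
    |det3 a b u - det3 a b' u| / 2 ≤ shadowArea K u := by
  have t1 := shadow_ge_tri hK hu P a b h
  have t2 := shadow_ge_tri hK hu P a b' h'
  rcases lt_trichotomy (det3 a b u) 0 with h1 | h1 | h1
  · rcases lt_trichotomy (det3 a b' u) 0 with h2 | h2 | h2
    · rw [abs_of_neg h1] at t1
      rw [abs_of_neg h2] at t2
      rcases abs_cases (det3 a b u - det3 a b' u) with h3 | h3 <;> linarith only [t1, h2, h3, t2, h1]
    · rw [h2, sub_zero]; exact t1
    · have t3 := shadow_ge_two hK hu P a b' b h' h h2 h1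
      rcases abs_cases (det3 a b u - det3 a b' u) with h3 | h3 <;> linarith only [h1, h2, h3, t3]
  · rw [h1, zero_sub, abs_neg]; exact t2
  · rcases lt_trichotomy (det3 a b' u) 0 with h2 | h2 | h2
    · have t3 := shadow_ge_two hK hu P a b b' h h' h1 h2
      rcases abs_cases (det3 a b u - det3 a b' u) with h3 | h3 <;> linarith only [h1, h2, h3, t3]
    · rw [h2, sub_zero]; exact t1
    · rw [abs_of_pos h1] at t1
      rw [abs_of_pos h2] at t2
      rcases abs_cases (det3 a b u - det3 a b' u) with h3 | h3 <;> linarith only [t1, h2, h3, t2, h1]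

/-- The tetrahedron with vertices `(1,0,0)`, `(-1,0,0)`, `(0,1,7/5)`, `(0,-1,7/5)`. -/
def tetra : Set E3 := {v : E3 | |v 0| ≤ 1 - 5 / 7 * v 2 ∧ |v 1| ≤ 5 / 7 * v 2}

theorem isConvexBody_tetra : IsConvexBody tetra := by
  have hcont : ∀ i : Fin 3, Continuous fun v : E3 => v i := fun i => by fun_prop
  refine ⟨?_, ?_, ?_⟩
  · refine Metric.isCompact_of_isClosed_isBounded ?_ ?_
    · exact (isClosed_le (hcont 0).abs (continuous_const.sub (continuous_const.mul (hcont 2)))).inter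
        (isClosed_le (hcont 1).abs (continuous_const.mul (hcont 2)))
    · refine (Metric.isBounded_closedBall (x := (0 : E3)) (r := 3)).subset ?_
      rintro v ⟨h0, h1⟩
      rw [mem_closedBall_zero_iff, EuclideanSpace.norm_eq]
      rw [Real.sqrt_le_left (by norm_num)]
      simp only [Fin.sum_univ_three, Real.norm_eq_abs, sq_abs]
      have a0 := abs_nonneg (v 0)
      have a1 := abs_nonneg (v 1)
      obtain ⟨h2, h3⟩ := abs_le.mp h0
      obtain ⟨h4, h5⟩ := abs_le.mp h1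
      have h6 : v 2 ≤ 7 / 5 := by linarith only [h0, a0]
      have h7 : 0 ≤ v 2 := by linarith only [h1, a1]
      nlinarith only [h2, h3, h4, h5]
  · rintro v ⟨h0, h1⟩ w ⟨k0, k1⟩ a b ha hb hab
    obtain ⟨h2, h3⟩ := abs_le.mp h0
    obtain ⟨h4, h5⟩ := abs_le.mp h1
    obtain ⟨k2, k3⟩ := abs_le.mp k0
    obtain ⟨k4, k5⟩ := abs_le.mp k1
    have hb' : b = 1 - a := by linarith only [hab]
    subst hb'
    refine ⟨abs_le.mpr ⟨?_, ?_⟩, abs_le.mpr ⟨?_, ?_⟩⟩ <;>
      simp only [PiLp.add_apply, PiLp.smul_apply, smul_eq_mul] <;> nlinarith only [ha, h2, k2, hb, h3, k3, h4, k4, h5, k5]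
  · refine ⟨vec 0 0 (7 / 10), ?_⟩
    rw [mem_interior]
    refine ⟨{v : E3 | |v 0| < 1 - 5 / 7 * v 2 ∧ |v 1| < 5 / 7 * v 2}, ?_, ?_, ?_⟩
    · rintro v ⟨h0, h1⟩
      exact ⟨h0.le, h1.le⟩
    · exact (isOpen_lt (hcont 0).abs (continuous_const.sub (continuous_const.mul (hcont 2)))).inter
        (isOpen_lt (hcont 1).abs (continuous_const.mul (hcont 2)))
    · constructor <;> simp <;> norm_num

theorem isCompact_tetra : IsCompact tetra := isConvexBody_tetra.1

/-- The elementary inequality behind the minimal shadow. -/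
theorem unit_ineq {a b c : ℝ} (ha : 0 ≤ a) (hb : 0 ≤ b) (hc : 0 ≤ c)
    (h : a * a + b * b + c * c = 1) {M : ℝ} (h1 : 7 / 5 * (a + b) ≤ M) (h2 : 2 * c ≤ M)
    (h3 : 7 / 5 * a + c ≤ M) (h4 : 7 / 5 * b + c ≤ M) : 7 / 5 ≤ M := by
  by_contra hM
  push Not at hM
  have k1 : a + b < 1 := by linarith only [h1, hM]
  have k2 : c < 7 / 10 := by linarith only [h2, hM]
  have k3 : a < 1 - 5 / 7 * c := by linarith only [h3, hM]
  have k4 : b < 1 - 5 / 7 * c := by linarith only [h4, hM]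
  nlinarith only [h, k1, ha, h3, hM, hb, h4, hc, h2]

end Vale.Agent.P243
end
end

section

section

open MeasureTheory
open scoped ENNReal RealInnerProductSpace

namespace Vale.Agent.P243

theorem mem_tetra_iff (v : E3) :
    v ∈ tetra ↔ |v 0| ≤ 1 - 5 / 7 * v 2 ∧ |v 1| ≤ 5 / 7 * v 2 := Iff.rfl

/-- Faces and edges of the tetrahedron, seen from the vertex `(1,0,0)`. -/
theorem mem_tetra_A {s : ℝ × ℝ} (hs : s ∈ tri) :
    vec 1 0 0 + (s.1 • vec (-2) 0 0 + s.2 • vec (-1) 1 (7 / 5)) ∈ tetra := by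
  obtain ⟨h1, h2, h3⟩ := hs
  rw [mem_tetra_iff]
  simp only [PiLp.add_apply, PiLp.smul_apply, smul_eq_mul, vec_zero, vec_one, vec_two, abs_le]
  refine ⟨⟨?_, ?_⟩, ?_, ?_⟩ <;> linarith

theorem mem_tetra_B {s : ℝ × ℝ} (hs : s ∈ tri) :
    vec 1 0 0 + (s.1 • vec (-2) 0 0 + s.2 • vec (-1) (-1) (7 / 5)) ∈ tetra := by
  obtain ⟨h1, h2, h3⟩ := hs
  rw [mem_tetra_iff]
  simp only [PiLp.add_apply, PiLp.smul_apply, smul_eq_mul, vec_zero, vec_one, vec_two, abs_le]
  refine ⟨⟨?_, ?_⟩, ?_, ?_⟩ <;> linarith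

theorem mem_tetra_C {s : ℝ × ℝ} (hs : s ∈ tri) :
    vec 1 0 0 + (s.1 • vec (-1) 1 (7 / 5) + s.2 • vec (-2) 0 0) ∈ tetra := by
  obtain ⟨h1, h2, h3⟩ := hs
  rw [mem_tetra_iff]
  simp only [PiLp.add_apply, PiLp.smul_apply, smul_eq_mul, vec_zero, vec_one, vec_two, abs_le]
  refine ⟨⟨?_, ?_⟩, ?_, ?_⟩ <;> linarith

theorem mem_tetra_D {s : ℝ × ℝ} (hs : s ∈ tri) :
    vec 1 0 0 + (s.1 • vec (-1) 1 (7 / 5) + s.2 • vec (-1) (-1) (7 / 5)) ∈ tetra := by
  obtain ⟨h1, h2, h3⟩ := hs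
  rw [mem_tetra_iff]
  simp only [PiLp.add_apply, PiLp.smul_apply, smul_eq_mul, vec_zero, vec_one, vec_two, abs_le]
  refine ⟨⟨?_, ?_⟩, ?_, ?_⟩ <;> linarith

theorem mem_tetra_E {s : ℝ × ℝ} (hs : s ∈ tri) :
    vec 1 0 0 + (s.1 • vec (-1) (-1) (7 / 5) + s.2 • vec (-2) 0 0) ∈ tetra := by
  obtain ⟨h1, h2, h3⟩ := hs
  rw [mem_tetra_iff]
  simp only [PiLp.add_apply, PiLp.smul_apply, smul_eq_mul, vec_zero, vec_one, vec_two, abs_le]
  refine ⟨⟨?_, ?_⟩, ?_, ?_⟩ <;> linarith

theorem mem_tetra_F {s : ℝ × ℝ} (hs : s ∈ tri) :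
    vec 1 0 0 + (s.1 • vec (-1) (-1) (7 / 5) + s.2 • vec (-1) 1 (7 / 5)) ∈ tetra := by
  obtain ⟨h1, h2, h3⟩ := hs
  rw [mem_tetra_iff]
  simp only [PiLp.add_apply, PiLp.smul_apply, smul_eq_mul, vec_zero, vec_one, vec_two, abs_le]
  refine ⟨⟨?_, ?_⟩, ?_, ?_⟩ <;> linarith

/-- The face opposite to `(1,0,0)`. -/
theorem mem_tetra_G {s : ℝ × ℝ} (hs : s ∈ tri) :
    vec (-1) 0 0 + (s.1 • vec 1 1 (7 / 5) + s.2 • vec 1 (-1) (7 / 5)) ∈ tetra := by
  obtain ⟨h1, h2, h3⟩ := hs
  rw [mem_tetra_iff]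
  simp only [PiLp.add_apply, PiLp.smul_apply, smul_eq_mul, vec_zero, vec_one, vec_two, abs_le]
  refine ⟨⟨?_, ?_⟩, ?_, ?_⟩ <;> linarith

theorem abs_add_abs_le {x y M : ℝ} (h1 : |x + y| ≤ M) (h2 : |x - y| ≤ M) : |x| + |y| ≤ M := by
  obtain ⟨a1, a2⟩ := abs_le.mp h1
  obtain ⟨b1, b2⟩ := abs_le.mp h2
  rcases abs_cases x with h | h <;> rcases abs_cases y with h' | h' <;> linarith

/-- Every shadow of the tetrahedron has area at least `7/5`. -/
theorem shadow_tetra_ge {u : E3} (hu : ‖u‖ = 1) : 7 / 5 ≤ shadowArea tetra u := by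
  have huu : |u 0| * |u 0| + |u 1| * |u 1| + |u 2| * |u 2| = 1 := by
    rw [abs_mul_abs_self, abs_mul_abs_self, abs_mul_abs_self, ← inner_E3,
      real_inner_self_eq_norm_sq, hu]
    norm_num
  have fA := shadow_ge_tri isCompact_tetra hu _ _ _ (fun s hs => mem_tetra_A hs)
  have fB := shadow_ge_tri isCompact_tetra hu _ _ _ (fun s hs => mem_tetra_B hs)
  have fD := shadow_ge_tri isCompact_tetra hu _ _ _ (fun s hs => mem_tetra_D hs)
  have fG := shadow_ge_tri isCompact_tetra hu _ _ _ (fun s hs => mem_tetra_G hs)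
  have p1 := shadow_ge_pair isCompact_tetra hu _ _ _ _ (fun s hs => mem_tetra_A hs)
    (fun s hs => mem_tetra_B hs)
  have p2 := shadow_ge_pair isCompact_tetra hu _ _ _ _ (fun s hs => mem_tetra_C hs)
    (fun s hs => mem_tetra_D hs)
  have p3 := shadow_ge_pair isCompact_tetra hu _ _ _ _ (fun s hs => mem_tetra_E hs)
    (fun s hs => mem_tetra_F hs)
  set M := shadowArea tetra u
  simp only [det3, vec_zero, vec_one, vec_two] at fA fB fD fG p1 p2 p3
  rw [div_le_iff₀ (by norm_num), abs_le] at fA fB fD fG p1 p2 p3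
  obtain ⟨a1, a2⟩ := fA
  obtain ⟨b1, b2⟩ := fB
  obtain ⟨d1, d2⟩ := fD
  obtain ⟨g1, g2⟩ := fG
  obtain ⟨p11, p12⟩ := p1
  obtain ⟨p21, p22⟩ := p2
  obtain ⟨p31, p32⟩ := p3
  have q1 : |7 / 5 * u 1 - u 2| ≤ M := abs_le.mpr ⟨by linarith only [a1], by linarith only [a2]⟩
  have q2 : |7 / 5 * u 1 + u 2| ≤ M := abs_le.mpr ⟨by linarith only [b1], by linarith only [b2]⟩
  have q3 : |7 / 5 * u 0 + u 2| ≤ M := abs_le.mpr ⟨by linarith only [d1], by linarith only [d2]⟩
  have q4 : |7 / 5 * u 0 - u 2| ≤ M := abs_le.mpr ⟨by linarith only [g1], by linarith only [g2]⟩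
  have q5 : |2 * u 2| ≤ M := abs_le.mpr ⟨by linarith only [p12], by linarith only [p11]⟩
  have q6 : |7 / 5 * u 0 + 7 / 5 * u 1| ≤ M := abs_le.mpr ⟨by linarith only [p22], by linarith only [p21]⟩
  have q7 : |7 / 5 * u 0 - 7 / 5 * u 1| ≤ M := abs_le.mpr ⟨by linarith only [p31], by linarith only [p32]⟩
  have r1 := abs_add_abs_le q6 q7
  have r2 := abs_add_abs_le q3 q4
  have r3 := abs_add_abs_le q2 q1
  have e0 : |7 / 5 * u 0| = 7 / 5 * |u 0| := by rw [abs_mul]; norm_num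
  have e1 : |7 / 5 * u 1| = 7 / 5 * |u 1| := by rw [abs_mul]; norm_num
  have e2 : |2 * u 2| = 2 * |u 2| := by rw [abs_mul]; norm_num
  rw [e0, e1] at r1
  rw [e0] at r2
  rw [e1] at r3
  rw [e2] at q5
  exact unit_ineq (abs_nonneg (u 0)) (abs_nonneg (u 1)) (abs_nonneg (u 2)) huu
    (by linarith only [r1]) q5 r2 r3

theorem Amin_tetra_ge : 7 / 5 ≤ Amin tetra := by
  have : Nonempty (Metric.sphere (0 : E3) 1) :=
    ⟨⟨vec 1 0 0, by
      rw [mem_sphere_zero_iff_norm, EuclideanSpace.norm_eq]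
      simp [Fin.sum_univ_three]⟩⟩
  refine le_ciInf fun u => shadow_tetra_ge ?_
  exact mem_sphere_zero_iff_norm.mp u.2

end Vale.Agent.P243
end
end

section

section

namespace Vale.Agent.P243

/-- Grid points on `[-1,1]`. -/
noncomputable def grid (N : ℕ) (j : ℕ) : ℝ := -1 + 2 * j / N

theorem grid_zero (N : ℕ) : grid N 0 = -1 := by simp [grid]

theorem grid_last {N : ℕ} (hN : 0 < N) : grid N N = 1 := by
  have : (N : ℝ) ≠ 0 := by positivity
  unfold grid
  field_simp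
  norm_num

theorem grid_succ (N : ℕ) (j : ℕ) : grid N (j + 1) = grid N j + 2 / N := by
  unfold grid
  push_cast
  ring

theorem grid_ge (N : ℕ) (j : ℕ) : -1 ≤ grid N j := by
  unfold grid
  have : (0 : ℝ) ≤ 2 * j / N := by positivity
  linarith only [this]

theorem grid_le {N j : ℕ} (hN : 0 < N) (hj : j ≤ N) : grid N j ≤ 1 := by
  unfold grid
  have h1 : (0 : ℝ) < N := by positivity
  have h2 : (j : ℝ) ≤ N := by exact_mod_cast hj
  have : 2 * (j : ℝ) / N ≤ 2 := by
    rw [div_le_iff₀ h1]; linarith only [h2]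
  linarith only [this]

/-- Every point of the double wedge lies in one of the cells. -/
theorem exists_fan_cell {N : ℕ} (hN : 0 < N) {p X Y t : ℝ} (h1 : -t ≤ Y) (h2 : Y ≤ t) :
    ∃ j < N, grid N j * t + p * (1 - grid N j ^ 2) * X ≤ Y ∧
      Y ≤ grid N (j + 1) * t + p * (1 - grid N (j + 1) ^ 2) * X := by
  classical
  have hex : ∃ j, Y ≤ grid N (j + 1) * t + p * (1 - grid N (j + 1) ^ 2) * X := by
    refine ⟨N - 1, ?_⟩
    have : N - 1 + 1 = N := Nat.sub_add_cancel hN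
    rw [this, grid_last hN]
    linarith only [h2]
  refine ⟨Nat.find hex, ?_, ?_, Nat.find_spec hex⟩
  · have : Nat.find hex ≤ N - 1 := by
      refine Nat.find_min' hex ?_
      have : N - 1 + 1 = N := Nat.sub_add_cancel hN
      rw [this, grid_last hN]
      linarith only [h2]
    omega
  · rcases Nat.eq_zero_or_pos (Nat.find hex) with h0 | h0
    · rw [h0, grid_zero]
      linarith only [h1]
    · have h3 := Nat.find_min hex (m := Nat.find hex - 1) (by omega)
      have h4 : Nat.find hex - 1 + 1 = Nat.find hex := Nat.sub_add_cancel h0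
      rw [h4] at h3
      linarith only [h3]

/-- The slope data of a cell. -/
noncomputable def sA (a c : ℝ) : ℝ := 1 / 100 * (1 + a * c)
noncomputable def sB (a c : ℝ) : ℝ := 1 / 100 * (a + c)

/-- Height of a cell. -/
noncomputable def sT (δ a : ℝ) : ℝ := 1 / 2 + 1021 / 10000000 * (a ^ 2 + a ^ 4) + δ / 50

theorem sq_cell {δ a v : ℝ} (ha : -1 ≤ a) (hv1 : a ≤ v) (hv2 : v ≤ a + δ) (hv : v ≤ 1) :
    v ^ 2 + v ^ 4 ≤ a ^ 2 + a ^ 4 + 6 * δ := by
  have h0 : 0 ≤ v - a := by linarith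
  have h1 : v ^ 2 - a ^ 2 ≤ 2 * δ := by
    have : v ^ 2 - a ^ 2 = (v - a) * (v + a) := by ring
    rw [this]
    have : (v - a) * (v + a) ≤ (v - a) * 2 := by
      apply mul_le_mul_of_nonneg_left _ h0
      linarith
    linarith
  have hb : v ^ 2 + a ^ 2 ≤ 2 := by nlinarith only [ha, hv1, hv]
  have h2 : v ^ 4 - a ^ 4 ≤ 4 * δ := by
    have h3 : v ^ 4 - a ^ 4 = (v ^ 2 - a ^ 2) * (v ^ 2 + a ^ 2) := by ring
    rw [h3]
    have hδ : 0 ≤ δ := by linarith
    by_cases hs : 0 ≤ v ^ 2 - a ^ 2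
    · calc (v ^ 2 - a ^ 2) * (v ^ 2 + a ^ 2) ≤ (v ^ 2 - a ^ 2) * 2 :=
            mul_le_mul_of_nonneg_left hb hs
        _ ≤ 4 * δ := by linarith
    · have : (v ^ 2 - a ^ 2) * (v ^ 2 + a ^ 2) ≤ 0 :=
        mul_nonpos_of_nonpos_of_nonneg (by linarith) (by positivity)
      linarith
  linarith

theorem mul_ge_neg_one {a c : ℝ} (ha : -1 ≤ a) (ha' : a ≤ 1) (hc : -1 ≤ c) (hc' : c ≤ 1) :
    -1 ≤ a * c := by nlinarith only [ha, hc, ha', hc']

theorem mul_le_one' {a c : ℝ} (ha : -1 ≤ a) (ha' : a ≤ 1) (hc : -1 ≤ c) (hc' : c ≤ 1) :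
    a * c ≤ 1 := by nlinarith only [ha, hc', ha', hc]

theorem sq_le_one' {a : ℝ} (ha : -1 ≤ a) (ha' : a ≤ 1) : a ^ 2 ≤ 1 := by nlinarith only [ha, ha']

theorem prod_cell {δ a c v : ℝ} (hac : c = a + δ) (h1 : a ≤ v) (h2 : v ≤ c) (hv : -1 ≤ v)
    (hv' : v ≤ 1) : a * c ≤ v ^ 2 + δ := by
  have h3 : 0 ≤ (v - a) * (c - v) := mul_nonneg (by linarith) (by linarith)
  have h4 : -δ ≤ a + c - 2 * v := by linarith
  have h5 : a + c - 2 * v ≤ δ := by linarith
  have h6 : v * (a + c - 2 * v) ≤ δ := by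
    by_cases hs : 0 ≤ v
    · have : v * (a + c - 2 * v) ≤ v * δ := mul_le_mul_of_nonneg_left h5 hs
      nlinarith only [hac, h1, hv, h2, hv']
    · have : v * (a + c - 2 * v) ≤ v * (-δ) := mul_le_mul_of_nonpos_left h4 (by linarith)
      nlinarith only [hac, h2, this, hv, h1]
  linarith

theorem sA_bounds {δ a c v : ℝ} (ha : -1 ≤ a) (hc : c ≤ 1) (hac : c = a + δ) (h1 : a ≤ v)
    (h2 : v ≤ c) : 0 ≤ sA a c ∧ sA a c ≤ 1 / 50 ∧ sA a c ≤ 1 / 100 * (1 + v ^ 2 + δ) := by
  have hv : -1 ≤ v := by linarith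
  have hv' : v ≤ 1 := by linarith
  have p1 := mul_ge_neg_one ha (by linarith) (by linarith) hc
  have p2 := mul_le_one' ha (by linarith) (by linarith) hc
  have p3 := prod_cell hac h1 h2 hv hv'
  unfold sA
  refine ⟨by linarith only [p1], by linarith, by linarith⟩

/-- Bound for the slope term of one cell. -/
theorem sB_term {δ a c v X : ℝ} (hac : c = a + δ) (h1 : a ≤ v) (h2 : v ≤ c) (hX1 : -1 ≤ X)
    (hX2 : X ≤ 1) : -(sB a c * X) ≤ -(1 / 50 * (v * X)) + 1 / 100 * δ := by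
  have h4 : -δ ≤ a + c - 2 * v := by linarith
  have h5 : a + c - 2 * v ≤ δ := by linarith
  have hδ : 0 ≤ δ := by linarith
  have h6 : -δ ≤ (a + c - 2 * v) * X := by
    by_cases hs : 0 ≤ X
    · have := mul_le_mul_of_nonneg_right h4 hs
      nlinarith only [hac, h2, hX1, h1, hX2]
    · have := mul_le_mul_of_nonpos_right h5 (by linarith : X ≤ 0)
      nlinarith only [hac, h1, this, hX1, h2]
  unfold sB
  linarith only [h6]

/-- The purely algebraic core. -/
theorem core_ineq {v v' T T' A A' S : ℝ} (v1 : v ^ 2 ≤ 1) (v1' : v' ^ 2 ≤ 1)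
    (hA0 : 0 ≤ A) (hA2 : A ≤ 1 / 50) (hA0' : 0 ≤ A') (hA2' : A' ≤ 1 / 50)
    (hT : 1 / 2 ≤ T) (hT' : 1 / 2 ≤ T')
    (hS : (1 + A * A') * S = v * v' * (T - T') - v ^ 2 * A' * T - v' ^ 2 * A * T') :
    -S ≤ 1 / 2 * (v ^ 2 * A' + v' ^ 2 * A) + 51 / 50 * (T + T' - 1) := by
  have hv2 : 0 ≤ v ^ 2 := sq_nonneg v
  have hv2' : 0 ≤ v' ^ 2 := sq_nonneg v'
  have e1 : v ^ 2 * A' ≤ 1 / 50 := by nlinarith only [v1, hA2']
  have e1' : v' ^ 2 * A ≤ 1 / 50 := by nlinarith only [v1', hA2]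
  have f1 : v ^ 2 * A' * (T - 1 / 2) ≤ 1 / 50 * (T - 1 / 2) :=
    mul_le_mul_of_nonneg_right e1 (by linarith only [hT])
  have f1' : v' ^ 2 * A * (T' - 1 / 2) ≤ 1 / 50 * (T' - 1 / 2) :=
    mul_le_mul_of_nonneg_right e1' (by linarith only [hT'])
  have g1 : -1 ≤ v * v' := by nlinarith only [v1, v1']
  have g2 : v * v' ≤ 1 := by nlinarith only [v1, v1']
  have g3 : -(v * v' * (T - T')) ≤ (T - 1 / 2) + (T' - 1 / 2) := by
    have h5 : v * v' * (T' - 1 / 2) ≤ 1 * (T' - 1 / 2) :=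
      mul_le_mul_of_nonneg_right g2 (by linarith only [hT'])
    have h6 : -1 * (T - 1 / 2) ≤ v * v' * (T - 1 / 2) :=
      mul_le_mul_of_nonneg_right g1 (by linarith only [hT])
    linarith only [h5, h6]
  have hR : 0 ≤ 1 / 2 * (v ^ 2 * A' + v' ^ 2 * A) + 51 / 50 * (T + T' - 1) := by
    have : 0 ≤ v ^ 2 * A' := mul_nonneg hv2 hA0'
    have : 0 ≤ v' ^ 2 * A := mul_nonneg hv2' hA0
    (clear S v1 v1' hA2 hA2' hS e1 e1' f1 f1' g1 g2 g3; linarith)
  by_cases hs : 0 ≤ S
  · linarith only [hR, hs]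
  · have h7 : -S ≤ (1 + A * A') * (-S) := by
      have : 0 ≤ A * A' * (-S) := mul_nonneg (mul_nonneg hA0 hA0') (by linarith only [hs])
      linarith only [this]
    refine h7.trans ?_
    have h8 : (1 + A * A') * (-S) = v ^ 2 * A' * T + v' ^ 2 * A * T' - v * v' * (T - T') := by
      linarith only [hS]
    rw [h8]
    linarith only [f1, f1', g3]

/-- The numerical part. -/
theorem final_ineq {δ a a' v v' A A' T T' S : ℝ} (hδ : 0 ≤ δ)
    (v1 : v ^ 2 ≤ 1) (v1' : v' ^ 2 ≤ 1)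
    (hA1 : A ≤ 1 / 100 * (1 + v ^ 2 + δ)) (hA1' : A' ≤ 1 / 100 * (1 + v' ^ 2 + δ))
    (hS : -S ≤ 1 / 2 * (v ^ 2 * A' + v' ^ 2 * A) + 51 / 50 * (T + T' - 1))
    (hsum : T + T' ≤ 1 + 1 / 50 * (-S) + 1 / 50 * δ)
    (hg : v ^ 2 + v ^ 4 ≤ a ^ 2 + a ^ 4 + 6 * δ) (hg' : v' ^ 2 + v' ^ 4 ≤ a' ^ 2 + a' ^ 4 + 6 * δ) :
    T + T' ≤ sT δ a + sT δ a' := by
  have e1 : v ^ 2 * A' ≤ 1 / 100 * (v ^ 2 + v ^ 2 * v' ^ 2 + δ) := by
    have h1 : v ^ 2 * A' ≤ v ^ 2 * (1 / 100 * (1 + v' ^ 2 + δ)) :=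
      mul_le_mul_of_nonneg_left hA1' (sq_nonneg v)
    have h2 : v ^ 2 * δ ≤ 1 * δ := mul_le_mul_of_nonneg_right v1 hδ
    linarith only [h1, h2]
  have e1' : v' ^ 2 * A ≤ 1 / 100 * (v' ^ 2 + v ^ 2 * v' ^ 2 + δ) := by
    have h1 : v' ^ 2 * A ≤ v' ^ 2 * (1 / 100 * (1 + v ^ 2 + δ)) :=
      mul_le_mul_of_nonneg_left hA1 (sq_nonneg v')
    have h2 : v' ^ 2 * δ ≤ 1 * δ := mul_le_mul_of_nonneg_right v1' hδ
    linarith only [h1, h2]
  have h3 : 2 * (v ^ 2 * v' ^ 2) ≤ v ^ 4 + v' ^ 4 := by nlinarith only [sq_nonneg (v ^ 2 - v' ^ 2)]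
  have ha : 0 ≤ a ^ 2 + a ^ 4 := by positivity
  have ha' : 0 ≤ a' ^ 2 + a' ^ 4 := by positivity
  unfold sT
  linarith

/-- The heart of the covering: the two families cannot both miss a point. -/
theorem cover_key {δ X Y t a c a' c' : ℝ} (hδ : 0 ≤ δ) (hX1 : -1 ≤ X) (hX2 : X ≤ 1)
    (hY1 : -1 ≤ Y) (hY2 : Y ≤ 1)
    (ha : -1 ≤ a) (hc : c ≤ 1) (hac : c = a + δ) (ha' : -1 ≤ a') (hc' : c' ≤ 1)
    (hac' : c' = a' + δ)
    (h1 : a * (t - sB a c * X) ≤ Y - sA a c * X) (h2 : Y - sA a c * X ≤ c * (t - sB a c * X))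
    (h1' : a' * (1 - t - sB a' c' * Y) ≤ -X - sA a' c' * Y)
    (h2' : -X - sA a' c' * Y ≤ c' * (1 - t - sB a' c' * Y)) :
    t - sB a c * X ≤ sT δ a ∨ 1 - t - sB a' c' * Y ≤ sT δ a' := by
  by_contra hcon
  push Not at hcon
  obtain ⟨k, k'⟩ := hcon
  have hTp : 1 / 2 < t - sB a c * X := by
    refine lt_of_le_of_lt ?_ k
    unfold sT
    have : 0 ≤ 1021 / 10000000 * (a ^ 2 + a ^ 4) := by (clear * -; positivity)
    linarith
  have hTp' : 1 / 2 < 1 - t - sB a' c' * Y := by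
    refine lt_of_le_of_lt ?_ k'
    unfold sT
    have : 0 ≤ 1021 / 10000000 * (a' ^ 2 + a' ^ 4) := by (clear * -; positivity)
    linarith only [hδ, this]
  have hT0 : 0 < t - sB a c * X := by linarith only [hTp]
  have hT0' : 0 < 1 - t - sB a' c' * Y := by linarith only [hTp']
  obtain ⟨v, hv⟩ : ∃ v, v * (t - sB a c * X) = Y - sA a c * X :=
    ⟨(Y - sA a c * X) / (t - sB a c * X), div_mul_cancel₀ _ hT0.ne'⟩
  obtain ⟨v', hv'⟩ : ∃ v', v' * (1 - t - sB a' c' * Y) = -X - sA a' c' * Y :=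
    ⟨(-X - sA a' c' * Y) / (1 - t - sB a' c' * Y), div_mul_cancel₀ _ hT0'.ne'⟩
  have va : a ≤ v := by
    rw [← hv] at h1
    exact le_of_mul_le_mul_right h1 hT0
  have vc : v ≤ c := by
    rw [← hv] at h2
    exact le_of_mul_le_mul_right h2 hT0
  have va' : a' ≤ v' := by
    rw [← hv'] at h1'
    exact le_of_mul_le_mul_right h1' hT0'
  have vc' : v' ≤ c' := by
    rw [← hv'] at h2'
    exact le_of_mul_le_mul_right h2' hT0'
  obtain ⟨hA0, hA2, hA1⟩ := sA_bounds ha hc hac va vc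
  obtain ⟨hA0', hA2', hA1'⟩ := sA_bounds ha' hc' hac' va' vc'
  have v1 : v ^ 2 ≤ 1 := sq_le_one' (by linarith only [ha, va]) (by linarith only [hc, vc])
  have v1' : v' ^ 2 ≤ 1 := sq_le_one' (by linarith only [ha', va']) (by linarith only [hc', vc'])
  have b1 := sB_term hac va vc hX1 hX2
  have b1' := sB_term hac' va' vc' hY1 hY2
  have hg := sq_cell (δ := δ) ha va (by linarith only [hac, vc]) (by linarith only [hc, vc] : v ≤ 1)
  have hg' := sq_cell (δ := δ) ha' va' (by linarith only [hac', vc']) (by linarith only [hc', vc'] : v' ≤ 1)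
  set T := t - sB a c * X with hT
  set T' := 1 - t - sB a' c' * Y with hT'
  set A := sA a c with hA
  set A' := sA a' c' with hA'
  have hS : (1 + A * A') * (v * X + v' * Y)
      = v * v' * (T - T') - v ^ 2 * A' * T - v' ^ 2 * A * T' := by
    have eY : Y = v * T + A * X := by linarith only [hv]
    have eX : X = -(v' * T') - A' * Y := by linarith only [hv']
    linear_combination (v' - v * A') * eY + (v + v' * A) * eX
  have hc1 := core_ineq v1 v1' hA0 hA2 hA0' hA2' hTp.le hTp'.le hS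
  have hsum : T + T' ≤ 1 + 1 / 50 * (-(v * X + v' * Y)) + 1 / 50 * δ := by
    linarith only [b1, b1']
  have hfin := final_ineq hδ v1 v1' hA1 hA1' hc1 hsum hg hg'
  linarith only [k, k', hfin]

end Vale.Agent.P243
end
end

section

section

namespace Vale.Agent.P243

/-- Squared length of the axis direction of a cell (first coordinate normalized to one). -/
noncomputable def sL (a c : ℝ) : ℝ := 1 + sA a c ^ 2 + 49 / 25 * sB a c ^ 2

/-- Normalized area of the base of one cylinder. -/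
noncomputable def cellCost (δ a : ℝ) : ℝ := δ * (sT δ a ^ 2 * (√(sL a (a + δ)))⁻¹)

theorem inv_sqrt_le {u : ℝ} (hu : 0 ≤ u) : (√(1 + u))⁻¹ ≤ 1 - u / 2 + 3 * u ^ 2 / 8 := by
  have h1 : 0 < √(1 + u) := Real.sqrt_pos.mpr (by linarith)
  have hg : 0 < 1 - u / 2 + 3 * u ^ 2 / 8 := by nlinarith only []
  rw [inv_le_iff_one_le_mul₀ h1]
  have h2 : 1 ≤ (1 - u / 2 + 3 * u ^ 2 / 8) ^ 2 * (1 + u) := by
    have h3 : (1 - u / 2 + 3 * u ^ 2 / 8) ^ 2 * (1 + u)
        = 1 + u ^ 3 * (5 / 8 - 15 / 64 * u + 9 / 64 * u ^ 2) := by ring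
    have h4 : 0 ≤ 5 / 8 - 15 / 64 * u + 9 / 64 * u ^ 2 := by nlinarith only []
    have h5 : 0 ≤ u ^ 3 := by positivity
    rw [h3]
    nlinarith only [h5, h4]
  have h6 : (1 - u / 2 + 3 * u ^ 2 / 8) * √(1 + u)
      = √((1 - u / 2 + 3 * u ^ 2 / 8) ^ 2 * (1 + u)) := by
    rw [Real.sqrt_mul (sq_nonneg _), Real.sqrt_sq hg.le]
  rw [h6]
  exact Real.one_le_sqrt.mpr h2

theorem poly_bound {x u : ℝ} (hx : 0 ≤ x) (hx1 : x ≤ 3 / 10000) (hu : 0 ≤ u)
    (hu1 : u ≤ 12 / 10000) :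
    (1 / 2 + x) ^ 2 * (1 - u / 2 + 3 * u ^ 2 / 8) ≤ 1 / 4 + x - u / 8 + 1 / 4000000 := by
  have e1 : x ^ 2 ≤ 9 / 100000000 := by nlinarith only [hx1, hx]
  have e2 : u ^ 2 ≤ 144 / 100000000 := by nlinarith only [hu1, hu]
  have e3 : 0 ≤ u / 2 - 3 * u ^ 2 / 8 := by nlinarith only [hu, hu1]
  have e4 : 0 ≤ (x + x ^ 2) * (u / 2 - 3 * u ^ 2 / 8) := mul_nonneg (by positivity) e3
  have e5 : (1 / 2 + x) ^ 2 * (1 - u / 2 + 3 * u ^ 2 / 8)
      = 1 / 4 + x - u / 8 + (x ^ 2 + 3 / 32 * u ^ 2) - (x + x ^ 2) * (u / 2 - 3 * u ^ 2 / 8) := by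
    ring
  rw [e5]
  linarith only [e1, e2, e4]

/-- The antiderivative used for telescoping. -/
noncomputable def Hf (v : ℝ) : ℝ :=
  (1 / 4 - 1 / 80000) * v + (1021 / 10000000 - 123 / 1000000) * (v ^ 3 / 3)
    + (1021 / 10000000 - 1 / 80000) * (v ^ 5 / 5)

theorem cube_bounds {a : ℝ} (h1 : -1 ≤ a) (h2 : a ≤ 1) : -1 ≤ a ^ 3 ∧ a ^ 3 ≤ 1 := by
  have h3 := sq_le_one' h1 h2
  have h4 : 0 ≤ a ^ 2 := sq_nonneg a
  have e : a ^ 3 = a ^ 2 * a := by ring
  rw [e]
  exact ⟨by nlinarith only [h3, h1], by nlinarith only [h3, h2]⟩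

theorem Hf_step {δ a : ℝ} (hδ : 0 ≤ δ) (hδ1 : δ ≤ 1) (ha : -1 ≤ a) (ha1 : a ≤ 1) :
    δ * (1 / 4 - 1 / 80000 + (1021 / 10000000 - 123 / 1000000) * a ^ 2
      + (1021 / 10000000 - 1 / 80000) * a ^ 4) ≤ Hf (a + δ) - Hf a + δ ^ 2 / 1000 := by
  obtain ⟨c1, c2⟩ := cube_bounds ha ha1
  have d2 : 0 ≤ δ ^ 2 := by positivity
  have d3 : 0 ≤ δ ^ 3 := by positivity
  have d32 : δ ^ 3 ≤ δ ^ 2 := by nlinarith only [hδ1]
  have d4 : 0 ≤ δ ^ 4 := by positivity
  have d42 : δ ^ 4 ≤ δ ^ 2 := by nlinarith only [d32, hδ]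
  have d5 : 0 ≤ δ ^ 5 := by positivity
  have m1 : a * δ ^ 2 ≤ 1 * δ ^ 2 := mul_le_mul_of_nonneg_right ha1 d2
  have m2 : -1 * δ ^ 2 ≤ a ^ 3 * δ ^ 2 := mul_le_mul_of_nonneg_right c1 d2
  have m3 : 0 ≤ a ^ 2 * δ ^ 3 := mul_nonneg (sq_nonneg a) d3
  have m4 : -1 * δ ^ 4 ≤ a * δ ^ 4 := mul_le_mul_of_nonneg_right ha d4
  have key : Hf (a + δ) - Hf a = δ * (1 / 4 - 1 / 80000
      + (1021 / 10000000 - 123 / 1000000) * a ^ 2 + (1021 / 10000000 - 1 / 80000) * a ^ 4)
      + (1021 / 10000000 - 123 / 1000000) * (a * δ ^ 2 + δ ^ 3 / 3)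
      + (1021 / 10000000 - 1 / 80000)
        * (2 * (a ^ 3 * δ ^ 2) + 2 * (a ^ 2 * δ ^ 3) + a * δ ^ 4 + δ ^ 5 / 5) := by
    unfold Hf
    ring
  rw [key]
  linarith only [d2, d32, d42, d5, m1, m2, m3, m4]

/-- Estimate of the cost of one cell. -/
theorem cellCost_le {δ a : ℝ} (hδ : 0 ≤ δ) (hδ1 : δ ≤ 1 / 1000) (ha : -1 ≤ a)
    (hc : a + δ ≤ 1) :
    cellCost δ a ≤ Hf (a + δ) - Hf a + δ / 4000000 + δ ^ 2 / 20 := by
  have ha1 : a ≤ 1 := by linarith only [hδ, hc]
  have hc1 : -1 ≤ a + δ := by linarith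
  set u : ℝ := sA a (a + δ) ^ 2 + 49 / 25 * sB a (a + δ) ^ 2 with hu
  have hu0 : 0 ≤ u := by positivity
  have hsL : sL a (a + δ) = 1 + u := by
    unfold sL
    rw [hu]
    ring
  have q1 := mul_ge_neg_one ha ha1 hc1 hc
  have q2 := mul_le_one' ha ha1 hc1 hc
  have hue : u = 1 / 10000 * ((1 + a * (a + δ)) ^ 2 + 49 / 25 * (a + (a + δ)) ^ 2) := by
    rw [hu]
    unfold sA sB
    ring
  have hu1 : u ≤ 12 / 10000 := by
    have r1 : (1 + a * (a + δ)) ^ 2 ≤ 4 := by nlinarith only [q2, q1]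
    have r2 : (a + (a + δ)) ^ 2 ≤ 4 := by nlinarith only [hδ, ha, hc]
    rw [hue]
    linarith only [r1, r2]
  have hul : 1 / 10000 * ((1 + a ^ 2) ^ 2 + 196 / 25 * a ^ 2 - 12 * δ) ≤ u := by
    have r1 : (1 + a ^ 2) ^ 2 - 4 * δ ≤ (1 + a * (a + δ)) ^ 2 := by
      have e1 : (1 + a * (a + δ)) ^ 2 = (1 + a ^ 2) ^ 2 + δ * (a * (2 + a * (a + δ) + a ^ 2)) := by
        ring
      have e2 : 0 ≤ 2 + a * (a + δ) + a ^ 2 := by nlinarith only [q1]
      have e3 : 2 + a * (a + δ) + a ^ 2 ≤ 4 := by linarith only [q2, sq_le_one' ha ha1]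
      have e4 : -4 ≤ a * (2 + a * (a + δ) + a ^ 2) := by nlinarith only [ha, e3, hδ, q2, hδ1]
      rw [e1]
      nlinarith only [hδ, e4]
    have r2 : 4 * a ^ 2 - 4 * δ ≤ (a + (a + δ)) ^ 2 := by
      have e1 : (a + (a + δ)) ^ 2 = 4 * a ^ 2 + 4 * (a * δ) + δ ^ 2 := by ring
      have e2 : -1 * δ ≤ a * δ := mul_le_mul_of_nonneg_right ha hδ
      rw [e1]
      linarith only [e2, sq_nonneg δ]
    rw [hue]
    linarith only [hδ, r1, r2]
  set x : ℝ := 1021 / 10000000 * (a ^ 2 + a ^ 4) + δ / 50 with hx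
  have hsT : sT δ a = 1 / 2 + x := by
    unfold sT
    rw [hx]
    ring
  have a2 := sq_le_one' ha ha1
  have a4 : a ^ 4 ≤ 1 := by
    have : a ^ 4 = a ^ 2 * a ^ 2 := by ring
    rw [this]
    nlinarith only [a2]
  have hx0 : 0 ≤ x := by (clear * - hδ; positivity)
  have hx1 : x ≤ 3 / 10000 := by
    rw [hx]
    linarith only [hδ1, hu1, hul, a4]
  have h1 : sT δ a ^ 2 * (√(sL a (a + δ)))⁻¹ ≤ 1 / 4 + x - u / 8 + 1 / 4000000 := by
    rw [hsL, hsT]
    refine le_trans ?_ (poly_bound hx0 hx1 hu0 hu1)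
    exact mul_le_mul_of_nonneg_left (inv_sqrt_le hu0) (sq_nonneg _)
  have h2 : 1 / 4 + x - u / 8 + 1 / 4000000 ≤ (1 / 4 - 1 / 80000
      + (1021 / 10000000 - 123 / 1000000) * a ^ 2 + (1021 / 10000000 - 1 / 80000) * a ^ 4)
      + 1 / 4000000 + δ / 40 := by
    rw [hx]
    nlinarith only [hδ, hul]
  have h3 := Hf_step hδ (by linarith only [hδ1]) ha ha1
  unfold cellCost
  have h4 : δ * (sT δ a ^ 2 * (√(sL a (a + δ)))⁻¹) ≤ δ * ((1 / 4 - 1 / 80000
      + (1021 / 10000000 - 123 / 1000000) * a ^ 2 + (1021 / 10000000 - 1 / 80000) * a ^ 4)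
      + 1 / 4000000 + δ / 40) := mul_le_mul_of_nonneg_left (h1.trans h2) hδ
  refine h4.trans ?_
  nlinarith only [h3]

/-- Total cost of one family. -/
theorem sum_cellCost_lt {N : ℕ} (hN : N = 1000000) :
    ∑ j ∈ Finset.range N, cellCost (2 / N) (grid N j) ≤ 1 / 2 - 2 / 1000000 := by
  have hN0 : 0 < N := by omega
  have hNr : (N : ℝ) = 1000000 := by rw [hN]; norm_num
  have hδ : (0 : ℝ) ≤ 2 / N := by positivity
  have h1 : ∀ j ∈ Finset.range N, cellCost (2 / N) (grid N j)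
      ≤ (Hf (grid N (j + 1)) - Hf (grid N j)) + ((2 / N) / 4000000 + (2 / N : ℝ) ^ 2 / 20) := by
    intro j hj
    have hj' : j < N := Finset.mem_range.mp hj
    have h2 := cellCost_le (δ := 2 / N) (a := grid N j) hδ (by rw [hNr]; norm_num)
      (grid_ge N j) (by rw [← grid_succ]; exact grid_le hN0 hj')
    rw [← grid_succ] at h2
    linarith only [h2]
  refine (Finset.sum_le_sum h1).trans ?_
  rw [Finset.sum_add_distrib, Finset.sum_range_sub (fun j => Hf (grid N j)), grid_zero,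
    grid_last hN0, Finset.sum_const, Finset.card_range, nsmul_eq_mul, hNr]
  unfold Hf
  norm_num

end Vale.Agent.P243
end
end

section

section

open MeasureTheory
open scoped ENNReal RealInnerProductSpace

namespace Vale.Agent.P243.Bridge

/-- Forget the Euclidean norm. -/
abbrev flat (x : E3) : Fin 3 → ℝ := WithLp.ofLp x

theorem flat_dot (a b : E3) : flat a ⬝ᵥ flat b = ⟪a, b⟫ := by
  simp only [dotProduct, Fin.sum_univ_three, Fin.isValue, PiLp.inner_apply, RCLike.inner_apply, Real.ringHom_apply]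
  ring

theorem sub_proj_mem (u x : E3) : x - (proj u x : E3) ∈ Submodule.span ℝ {u} :=
  Vale.Agent.P243.sub_proj_mem u x

theorem inner_proj {u : E3} (y : perp u) (x : E3) : ⟪y, proj u x⟫ = ⟪(y : E3), x⟫ := by
  have h1 := sub_proj_mem u x
  have h2 : ⟪(y : E3), x - (proj u x : E3)⟫ = 0 := by
    have h3 := (Submodule.mem_orthogonal _ _).mp y.2 _ h1
    rw [real_inner_comm]
    exact h3
  rw [inner_sub_right, sub_eq_zero] at h2
  rw [h2, Submodule.coe_inner]

/-- Coordinates on `perp u` with respect to an orthonormal basis. -/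
theorem exists_iso {u : E3} (o : OrthonormalBasis (Fin 2) ℝ (perp u)) :
    ∃ e : perp u ≃ᵐ ℝ × ℝ,
      MeasurePreserving e volume volume ∧ ∀ y, e y = (⟪o 0, y⟫, ⟪o 1, y⟫) := by
  refine ⟨(o.measurableEquiv.trans (MeasurableEquiv.toLp 2 (Fin 2 → ℝ)).symm).trans
    MeasurableEquiv.finTwoArrow, ?_, ?_⟩
  · exact (o.measurePreserving_measurableEquiv.trans
      (EuclideanSpace.volume_preserving_symm_measurableEquiv_toLp (Fin 2))).trans
      (volume_preserving_finTwoArrow ℝ)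
  · intro y
    change (o.repr y 0, o.repr y 1) = _
    rw [o.repr_apply_apply, o.repr_apply_apply]

theorem finrank_perp {u : E3} (hu : ‖u‖ = 1) : Module.finrank ℝ (perp u) = 2 := by
  have hu0 : u ≠ 0 := by
    intro h
    rw [h, norm_zero] at hu
    exact zero_ne_one hu
  have : Fact (Module.finrank ℝ E3 = 2 + 1) := ⟨by simp⟩
  exact Submodule.finrank_orthogonal_span_singleton hu0

theorem image_compact_convex {u : E3} {a b : perp u} {e : perp u ≃ᵐ ℝ × ℝ}
    (h : ∀ y, e y = (⟪a, y⟫, ⟪b, y⟫)) {B : Set (perp u)} (hc : IsCompact B) (hB : Convex ℝ B) :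
    IsCompact (e '' B) ∧ Convex ℝ (e '' B) := by
  have h1 : (e : perp u → ℝ × ℝ) = ((innerₛₗ ℝ a).prod (innerₛₗ ℝ b) : perp u →ₗ[ℝ] ℝ × ℝ) := by
    funext y
    rw [h y]
    rfl
  constructor
  · refine hc.image ?_
    have h2 : (e : perp u → ℝ × ℝ) = fun y => (⟪a, y⟫, ⟪b, y⟫) := funext h
    rw [h2]
    fun_prop
  · rw [h1]
    exact hB.linear_image _

theorem frame_of_axis {u : E3} (hu : ‖u‖ = 1) :
    ∃ (F : Plain.Frame) (e : perp u ≃ᵐ ℝ × ℝ), MeasurePreserving e volume volume ∧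
      (∀ x : E3, F.proj (flat x) = e (proj u x)) ∧
      ∀ B : Set (perp u), IsCompact B → Convex ℝ B → IsCompact (e '' B) ∧ Convex ℝ (e '' B) := by
  let o : OrthonormalBasis (Fin 2) ℝ (perp u) :=
    (stdOrthonormalBasis ℝ (perp u)).reindex (finCongr (finrank_perp hu))
  obtain ⟨e, he, hey⟩ := exists_iso o
  have h00 : ⟪o 0, o 0⟫ = (1 : ℝ) := by
    rw [real_inner_self_eq_norm_sq, o.orthonormal.1 0]; norm_num
  have h11 : ⟪o 1, o 1⟫ = (1 : ℝ) := by
    rw [real_inner_self_eq_norm_sq, o.orthonormal.1 1]; norm_num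
  have h01 : ⟪o 0, o 1⟫ = (0 : ℝ) := o.orthonormal.2 (by decide)
  refine ⟨⟨flat (o 0), flat (o 1), ?_, ?_, ?_⟩, e, he, ?_, fun B hc hB =>
    image_compact_convex hey hc hB⟩
  · rw [flat_dot, ← Submodule.coe_inner]; exact h00
  · rw [flat_dot, ← Submodule.coe_inner]; exact h11
  · rw [flat_dot, ← Submodule.coe_inner]; exact h01
  · intro x
    rw [hey, inner_proj, inner_proj]
    change (flat (o 0) ⬝ᵥ flat x, flat (o 1) ⬝ᵥ flat x) = _
    rw [flat_dot, flat_dot]

theorem volume_image_equiv {u : E3} {e : perp u ≃ᵐ ℝ × ℝ} (he : MeasurePreserving e volume volume)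
    (T : Set (perp u)) : volume (e '' T) = volume T := by
  rw [← he.measure_preimage_equiv (e '' T), Set.preimage_image_eq _ e.injective]

theorem axis_of_frame (F : Plain.Frame) :
    ∃ u : E3, ‖u‖ = 1 ∧ ∀ K : Set E3, F.shadow (flat '' K) = shadowArea K u := by
  obtain ⟨e, f, hee, hff, hef⟩ := F
  let E : E3 := WithLp.toLp 2 e
  let F' : E3 := WithLp.toLp 2 f
  simp only [dotProduct, Fin.sum_univ_three] at hee hff hef
  let u : E3 := WithLp.toLp 2 ![e 1 * f 2 - e 2 * f 1, e 2 * f 0 - e 0 * f 2,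
    e 0 * f 1 - e 1 * f 0]
  have hin : ∀ a b : E3, ⟪a, b⟫ = a 0 * b 0 + a 1 * b 1 + a 2 * b 2 := by
    intro a b
    simp only [PiLp.inner_apply, RCLike.inner_apply, Real.ringHom_apply, Fin.sum_univ_three, Fin.isValue]
    ring
  have hu0 : u 0 = e 1 * f 2 - e 2 * f 1 := rfl
  have hu1 : u 1 = e 2 * f 0 - e 0 * f 2 := rfl
  have hu2 : u 2 = e 0 * f 1 - e 1 * f 0 := rfl
  have hE : ∀ i, E i = e i := fun _ => rfl
  have hF : ∀ i, F' i = f i := fun _ => rfl
  have huu : ‖u‖ = 1 := by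
    have h1 : ‖u‖ ^ 2 = 1 := by
      rw [← real_inner_self_eq_norm_sq, hin, hu0, hu1, hu2]
      linear_combination (f 0 * f 0 + f 1 * f 1 + f 2 * f 2) * hee + hff
        - (e 0 * f 0 + e 1 * f 1 + e 2 * f 2) * hef
    nlinarith only [h1, norm_nonneg u]
  have hEu : E ∈ perp u := by
    rw [Submodule.mem_orthogonal_singleton_iff_inner_right, hin, hu0, hu1, hu2, hE, hE, hE]
    ring
  have hFu : F' ∈ perp u := by
    rw [Submodule.mem_orthogonal_singleton_iff_inner_right, hin, hu0, hu1, hu2, hF, hF, hF]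
    ring
  let v : Fin 2 → perp u := ![⟨E, hEu⟩, ⟨F', hFu⟩]
  have hv : Orthonormal ℝ v := by
    rw [orthonormal_iff_ite]
    intro i j
    fin_cases i <;> fin_cases j
    · change ⟪E, E⟫ = 1
      rw [hin, hE, hE, hE]; exact hee
    · change ⟪E, F'⟫ = 0
      rw [hin, hE, hE, hE, hF, hF, hF]; exact hef
    · change ⟪F', E⟫ = 0
      rw [hin, hE, hE, hE, hF, hF, hF]; linarith only [hef]
    · change ⟪F', F'⟫ = 1
      rw [hin, hF, hF, hF]; exact hff
  have hcard : Fintype.card (Fin 2) = Module.finrank ℝ (perp u) := by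
    rw [finrank_perp huu]; rfl
  have hb := coe_basisOfOrthonormalOfCardEqFinrank hv hcard
  let o : OrthonormalBasis (Fin 2) ℝ (perp u) :=
    (basisOfOrthonormalOfCardEqFinrank hv hcard).toOrthonormalBasis (by rw [hb]; exact hv)
  have ho : ∀ i, o i = v i := by
    intro i
    simp only [Module.Basis.coe_toOrthonormalBasis, o]
    rw [hb]
  obtain ⟨g, hg, hgy⟩ := exists_iso o
  refine ⟨u, huu, fun K => ?_⟩
  unfold Plain.Frame.shadow shadowArea
  congr 1
  rw [← volume_image_equiv hg]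
  congr 1
  rw [← Set.image_comp, ← Set.image_comp]
  refine Set.image_congr fun x _ => ?_
  rw [Function.comp_apply, Function.comp_apply, hgy, inner_proj, inner_proj, ho, ho]
  change (e ⬝ᵥ flat x, f ⬝ᵥ flat x) = (⟪E, x⟫, ⟪F', x⟫)
  rw [← flat_dot, ← flat_dot]

theorem transfer_full {K : Set E3} (C : CylinderCovering K) :
    ∃ C' : Plain.CylinderCovering (flat '' K),
      C'.totalArea = C.totalArea ∧ C'.relArea = C.relArea ∧
      ((∀ i, IsCompact (C.base i) ∧ Convex ℝ (C.base i)) →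
        ∀ i, IsCompact (C'.base i) ∧ Convex ℝ (C'.base i)) := by
  choose F e he hF hcc using fun i => frame_of_axis (C.norm_axis i)
  refine ⟨{ m := C.m, frame := F, base := fun i => e i '' C.base i,
            measurable_base := ?_, finite_area := ?_, covers := ?_ }, ?_, ?_, ?_⟩
  · intro i
    rw [MeasurableEquiv.image_eq_preimage_symm]
    exact (C.base_measurable i).preimage (he i).symm.quasiMeasurePreserving
  · intro i
    rw [volume_image_equiv (he i)]
    exact C.base_finite i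
  · rintro _ ⟨x, hx, rfl⟩
    obtain ⟨i, hi⟩ := Set.mem_iUnion.mp (C.covers hx)
    refine Set.mem_iUnion.mpr ⟨i, ?_⟩
    change (F i).proj (flat x) ∈ e i '' C.base i
    rw [hF i]
    exact ⟨_, hi, rfl⟩
  · unfold Plain.CylinderCovering.totalArea CylinderCovering.totalArea
    refine Finset.sum_congr rfl fun i _ => ?_
    change (volume (e i '' C.base i)).toReal = _
    rw [volume_image_equiv (he i)]
  · unfold Plain.CylinderCovering.relArea CylinderCovering.relArea
    refine Finset.sum_congr rfl fun i _ => ?_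
    change (volume (e i '' C.base i)).toReal / (F i).shadow (flat '' K) = _
    rw [volume_image_equiv (he i)]
    congr 1
    unfold Plain.Frame.shadow shadowArea
    congr 1
    rw [← volume_image_equiv (he i)]
    congr 1
    rw [← Set.image_comp, ← Set.image_comp]
    refine Set.image_congr fun x _ => ?_
    rw [Function.comp_apply, Function.comp_apply, hF i]
  · intro h i
    exact hcc i _ (h i).1 (h i).2

theorem transfer {K : Set E3} (C : CylinderCovering K) :
    ∃ C' : Plain.CylinderCovering (flat '' K),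
      C'.totalArea = C.totalArea ∧ C'.relArea = C.relArea := by
  obtain ⟨C', h1, h2, _⟩ := transfer_full C
  exact ⟨C', h1, h2⟩

theorem isConvexBody_flat {K : Set E3} (h : IsConvexBody K) : Plain.IsConvexBody (flat '' K) := by
  obtain ⟨h1, h2, h3⟩ := h
  refine ⟨?_, ?_, ?_⟩
  · exact h1.image (PiLp.continuous_ofLp 2 _)
  · have := h2.linear_image (WithLp.linearEquiv 2 ℝ (Fin 3 → ℝ)).toLinearMap
    exact this
  · have h4 : IsOpenMap (flat : E3 → Fin 3 → ℝ) :=
      (PiLp.homeomorph 2 (fun _ : Fin 3 => ℝ)).isOpenMap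
    exact (h3.image flat).mono (h4.image_interior_subset K)

theorem Amin_le {K : Set E3} : Amin K ≤ Plain.Amin (flat '' K) := by
  have : Nonempty Plain.Frame :=
    ⟨⟨![1, 0, 0], ![0, 1, 0], by simp [dotProduct, Fin.sum_univ_three],
      by simp [dotProduct, Fin.sum_univ_three], by simp [dotProduct, Fin.sum_univ_three]⟩⟩
  refine le_ciInf fun F => ?_
  obtain ⟨u, hu, hF⟩ := axis_of_frame F
  rw [hF]
  refine ciInf_le ⟨0, ?_⟩ (⟨u, by simpa using hu⟩ : Metric.sphere (0 : E3) 1)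
  rintro _ ⟨w, rfl⟩
  exact ENNReal.toReal_nonneg

theorem totalArea_nonneg {K : Set (Fin 3 → ℝ)} (C : Plain.CylinderCovering K) :
    0 ≤ C.totalArea := Finset.sum_nonneg fun _ _ => ENNReal.toReal_nonneg

theorem relArea_nonneg {K : Set (Fin 3 → ℝ)} (C : Plain.CylinderCovering K) : 0 ≤ C.relArea :=
  Finset.sum_nonneg fun _ _ => div_nonneg ENNReal.toReal_nonneg ENNReal.toReal_nonneg

theorem Amin_nonneg (K : Set (Fin 3 → ℝ)) : 0 ≤ Plain.Amin K :=
  Real.iInf_nonneg fun _ => ENNReal.toReal_nonneg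

theorem r3_le {K : Set E3} (hK : IsConvexBody K) {c : ℝ}
    (h : ∀ ε : ℝ, 0 < ε → ∃ C : CylinderCovering K, C.relArea ≤ c + ε) : Plain.r3 ≤ c := by
  refine le_of_forall_pos_le_add fun ε hε => ?_
  obtain ⟨C, hC⟩ := h ε hε
  obtain ⟨C', _, hC'⟩ := transfer C
  refine le_trans (csInf_le ⟨0, ?_⟩ ⟨_, isConvexBody_flat hK, C', rfl⟩) (hC'.trans_le hC)
  rintro r ⟨K', _, C'', rfl⟩
  exact relArea_nonneg C''

/-- The final transfer: a covering in the internal definitions whose total area is small gives one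
in the plain definitions, with all the data needed for the statements about `c3`. -/
theorem full_transfer {K : Set E3} (hK : IsConvexBody K) {C : CylinderCovering K} {a A : ℝ}
    (hC : C.totalArea ≤ a) (hb : ∀ i, IsCompact (C.base i) ∧ Convex ℝ (C.base i))
    (hA : A ≤ Amin K) (hA0 : 0 < A) :
    (∃ K, Plain.IsConvexBody K ∧ ∃ C : Plain.CylinderCovering K,
      (∀ i, IsCompact (C.base i) ∧ Convex ℝ (C.base i)) ∧
      0 < Plain.Amin K ∧ C.totalArea ≤ a / A * Plain.Amin K ∧ C.relArea ≤ a / A) ∧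
      Plain.c3 ≤ a / A := by
  obtain ⟨C', hC', _, hb'⟩ := transfer_full C
  have h1 : A ≤ Plain.Amin (flat '' K) := hA.trans Amin_le
  have h3 : 0 < Plain.Amin (flat '' K) := hA0.trans_le h1
  have ha : 0 ≤ a := (totalArea_nonneg C').trans (hC'.trans_le hC)
  have h2 : C'.totalArea ≤ a / A * Plain.Amin (flat '' K) := by
    rw [hC']
    refine hC.trans ?_
    rw [div_mul_eq_mul_div, le_div_iff₀ hA0]
    exact mul_le_mul_of_nonneg_left h1 ha
  have h4 : C'.relArea ≤ C'.totalArea / Plain.Amin (flat '' K) := by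
    unfold Plain.CylinderCovering.relArea Plain.CylinderCovering.totalArea
    rw [Finset.sum_div]
    refine Finset.sum_le_sum fun i _ => ?_
    refine div_le_div_of_nonneg_left ENNReal.toReal_nonneg h3 ?_
    refine ciInf_le ⟨0, ?_⟩ (C'.frame i)
    rintro _ ⟨w, rfl⟩
    exact ENNReal.toReal_nonneg
  have h5 : C'.totalArea / Plain.Amin (flat '' K) ≤ a / A := by
    rw [div_le_iff₀ h3]
    exact h2
  refine ⟨⟨_, isConvexBody_flat hK, C', hb' hb, h3, h2, h4.trans h5⟩, ?_⟩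
  refine le_trans (csInf_le ⟨0, ?_⟩ ⟨_, isConvexBody_flat hK, C', rfl⟩) h5
  rintro r ⟨K', _, C'', rfl⟩
  exact div_nonneg (totalArea_nonneg C'') (Amin_nonneg K')

end Vale.Agent.P243.Bridge
end
end

section

section

open MeasureTheory
open scoped ENNReal RealInnerProductSpace

namespace Vale.Agent.P243

/-- Coverings indexed by an arbitrary finite type. -/
theorem exists_covering_fintype {K : Set E3} {ι : Type} [Fintype ι] (axis : ι → E3)
    (hax : ∀ i, ‖axis i‖ = 1) (base : ∀ i, Set (perp (axis i)))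
    (hm : ∀ i, NullMeasurableSet (base i) volume) (hf : ∀ i, volume (base i) ≠ ∞)
    (hc : K ⊆ ⋃ i, cylinder (axis i) (base i)) :
    ∃ C : CylinderCovering K, C.totalArea = ∑ i, (volume (base i)).toReal ∧
      ∀ P : ∀ u : E3, Set (perp u) → Prop, (∀ i, P (axis i) (base i)) →
        ∀ k : Fin C.m, P (C.axis k) (C.base k) := by
  let e := Fintype.equivFin ι
  refine ⟨{ m := Fintype.card ι, axis := fun k => axis (e.symm k),
            norm_axis := fun k => hax _, base := fun k => base (e.symm k),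
            base_measurable := fun k => hm _, base_finite := fun k => hf _,
            covers := ?_ }, ?_, fun P h k => h (e.symm k)⟩
  · intro x hx
    obtain ⟨i, hi⟩ := Set.mem_iUnion.mp (hc hx)
    obtain ⟨k, rfl⟩ := e.symm.surjective i
    exact Set.mem_iUnion.mpr ⟨k, hi⟩
  · unfold CylinderCovering.totalArea
    exact Fintype.sum_equiv e.symm _ _ (fun k => rfl)

/-- A triangular base in the plane `perp u`. -/
noncomputable def cylBase (u O P Q : E3) : Set (perp u) :=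
  (fun y => proj u O + y) '' ((fun s : ℝ × ℝ => proj u (s.1 • P + s.2 • Q)) '' tri)

theorem volume_cylBase {u : E3} (hu : ‖u‖ = 1) (O P Q : E3) :
    volume (cylBase u O P Q) = ENNReal.ofReal (|det3 P Q u| / 2) := by
  unfold cylBase
  rw [Set.image_add_left, measure_preimage_add, volume_image_param hu, volume_tri,
    ← ENNReal.ofReal_mul (abs_nonneg _)]
  congr 1
  ring

theorem convex_tri : Convex ℝ tri := by
  rintro ⟨x1, x2⟩ ⟨h1, h2, h3⟩ ⟨y1, y2⟩ ⟨k1, k2, k3⟩ a b ha hb hab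
  simp only at h1 h2 h3 k1 k2 k3
  refine ⟨?_, ?_, ?_⟩ <;> simp only [Prod.fst_add, Prod.snd_add, Prod.smul_fst, Prod.smul_snd,
    smul_eq_mul]
  · positivity
  · positivity
  · nlinarith only [hab, h3, ha, k3, hb]

theorem convex_cylBase (u O P Q : E3) : Convex ℝ (cylBase u O P Q) := by
  unfold cylBase
  have h1 : Convex ℝ ((fun s : ℝ × ℝ => proj u (s.1 • P + s.2 • Q)) '' tri) := by
    refine convex_tri.is_linear_image ⟨?_, ?_⟩
    · intro s t
      rw [← proj_add]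
      congr 1
      simp only [Prod.fst_add, Prod.snd_add, add_smul]
      abel
    · intro c s
      rw [← proj_smul]
      congr 1
      simp only [Prod.smul_fst, Prod.smul_snd, smul_eq_mul, smul_add, mul_smul]
  exact h1.translate (proj u O)

theorem isCompact_cylBase (u O P Q : E3) : IsCompact (cylBase u O P Q) := by
  unfold cylBase
  refine (isCompact_tri.image ?_).image ?_
  · refine (continuous_proj u).comp ?_
    fun_prop
  · fun_prop

theorem proj_self (u : E3) : proj u u = 0 :=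
  Submodule.orthogonalProjectionOnto_orthogonalComplement_singleton_eq_zero u

theorem mem_cylinder_of {d O P Q x : E3} (hd : d ≠ 0) {s r k : ℝ} (hs : (s, r) ∈ tri)
    (hx : x = O + (s • P + r • Q) + k • d) :
    x ∈ cylinder (‖d‖⁻¹ • d) (cylBase (‖d‖⁻¹ • d) O P Q) := by
  have hn : ‖d‖ ≠ 0 := norm_ne_zero_iff.mpr hd
  have h1 : proj (‖d‖⁻¹ • d) (k • d) = 0 := by
    have : k • d = (k * ‖d‖) • (‖d‖⁻¹ • d) := by
      rw [smul_smul, mul_assoc, mul_inv_cancel₀ hn, mul_one]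
    rw [this, proj_smul, proj_self, smul_zero]
  change proj (‖d‖⁻¹ • d) x ∈ cylBase (‖d‖⁻¹ • d) O P Q
  refine ⟨_, ⟨(s, r), hs, rfl⟩, ?_⟩
  rw [hx, proj_add, proj_add, h1, add_zero]

theorem norm_inv_smul {d : E3} (hd : d ≠ 0) : ‖‖d‖⁻¹ • d‖ = 1 := by
  have hn : ‖d‖ ≠ 0 := norm_ne_zero_iff.mpr hd
  rw [norm_smul, norm_inv, norm_norm, inv_mul_cancel₀ hn]

/-- Axis directions: `false` for the lower family, `true` for the upper family. -/
noncomputable def axDir (b : Bool) (a c : ℝ) : E3 :=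
  if b then vec (-(sA a c)) 1 (-(7 / 5 * sB a c)) else vec 1 (sA a c) (7 / 5 * sB a c)

theorem norm_axDir (b : Bool) (a c : ℝ) : ‖axDir b a c‖ = √(sL a c) := by
  cases b <;>
  · simp only [axDir, Bool.false_eq_true, if_true, if_false]
    rw [EuclideanSpace.norm_eq]
    congr 1
    simp only [Fin.sum_univ_three, vec_zero, vec_one, vec_two, Real.norm_eq_abs, sq_abs, sL]
    ring

theorem sL_pos (a c : ℝ) : 0 < sL a c := by
  unfold sL
  positivity

theorem axDir_ne_zero (b : Bool) (a c : ℝ) : axDir b a c ≠ 0 := by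
  rw [← norm_pos_iff, norm_axDir]
  exact Real.sqrt_pos.mpr (sL_pos a c)

noncomputable def oPt (b : Bool) : E3 := if b then vec 0 0 (7 / 5) else 0

noncomputable def cPt (b : Bool) (τ w : ℝ) : E3 :=
  if b then vec (-(w * τ)) 0 (-(7 / 5 * τ)) else vec 0 (w * τ) (7 / 5 * τ)

theorem det3_smul_right (a b u : E3) (k : ℝ) : det3 a b (k • u) = k * det3 a b u := by
  simp only [det3, PiLp.smul_apply, smul_eq_mul]
  ring

/-- Area of one base. -/
theorem area_base (b : Bool) {δ a : ℝ} (hδ : 0 ≤ δ) :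
    (volume (cylBase (‖axDir b a (a + δ)‖⁻¹ • axDir b a (a + δ)) (oPt b)
      (cPt b (sT δ a) a) (cPt b (sT δ a) (a + δ)))).toReal = 7 / 10 * cellCost δ a := by
  rw [volume_cylBase (norm_inv_smul (axDir_ne_zero b a (a + δ))),
    ENNReal.toReal_ofReal (by positivity), det3_smul_right, norm_axDir]
  have h1 : |det3 (cPt b (sT δ a) a) (cPt b (sT δ a) (a + δ)) (axDir b a (a + δ))|
      = 7 / 5 * (δ * sT δ a ^ 2) := by
    have h2 : 0 ≤ 7 / 5 * (δ * sT δ a ^ 2) := by positivity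
    rw [← abs_of_nonneg h2]
    cases b
    · rw [← abs_neg]
      congr 1
      simp only [det3, cPt, axDir, Bool.false_eq_true, if_false, vec_zero, vec_one, vec_two]
      ring
    · congr 1
      simp only [det3, cPt, axDir, if_true, vec_zero, vec_one, vec_two]
      ring
  rw [abs_mul, h1, abs_of_nonneg (inv_nonneg.mpr (Real.sqrt_nonneg _))]
  unfold cellCost
  ring

/-- A point in a cell of one family below its height lies in the corresponding cylinder. -/
theorem mem_lower {δ a : ℝ} {x : E3} (hδ : 0 < δ)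
    (hτ : 0 < sT δ a)
    (h1 : a * (5 / 7 * x 2 - sB a (a + δ) * x 0) ≤ x 1 - sA a (a + δ) * x 0)
    (h2 : x 1 - sA a (a + δ) * x 0 ≤ (a + δ) * (5 / 7 * x 2 - sB a (a + δ) * x 0))
    (h3 : 5 / 7 * x 2 - sB a (a + δ) * x 0 ≤ sT δ a) :
    x ∈ cylinder (‖axDir false a (a + δ)‖⁻¹ • axDir false a (a + δ))
      (cylBase (‖axDir false a (a + δ)‖⁻¹ • axDir false a (a + δ)) (oPt false)
        (cPt false (sT δ a) a) (cPt false (sT δ a) (a + δ))) := by
  set T := 5 / 7 * x 2 - sB a (a + δ) * x 0 with hT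
  set Y := x 1 - sA a (a + δ) * x 0 with hY
  set τ := sT δ a
  have hτδ : 0 < τ * δ := mul_pos hτ hδ
  refine mem_cylinder_of (axDir_ne_zero _ _ _) (s := ((a + δ) * T - Y) / (τ * δ))
    (r := (Y - a * T) / (τ * δ)) (k := x 0) ⟨?_, ?_, ?_⟩ ?_
  · exact div_nonneg (by linarith only [h2]) hτδ.le
  · exact div_nonneg (by linarith only [h1]) hτδ.le
  · simp only
    rw [← add_div, div_le_one hτδ]
    nlinarith only [hδ, h3]
  · have e1 : ((a + δ) * T - Y) / (τ * δ) * (a * τ) + (Y - a * T) / (τ * δ) * ((a + δ) * τ) = Y := by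
      field_simp
      ring
    have e2 : ((a + δ) * T - Y) / (τ * δ) * τ + (Y - a * T) / (τ * δ) * τ = T := by
      field_simp
      ring
    ext i
    fin_cases i
    · simp only [Fin.zero_eta, Fin.isValue, oPt, Bool.false_eq_true, ↓reduceIte, cPt, zero_add, axDir, PiLp.add_apply, PiLp.smul_apply, vec_zero, smul_eq_mul, mul_zero, add_zero, mul_one]
    · simp only [axDir, cPt, oPt, Bool.false_eq_true, if_false, PiLp.add_apply, PiLp.smul_apply,
        smul_eq_mul, PiLp.zero_apply]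
      change x 1 = 0 + (_ * (a * τ) + _ * ((a + δ) * τ)) + x 0 * sA a (a + δ)
      rw [e1, hY]
      ring
    · simp only [axDir, cPt, oPt, Bool.false_eq_true, if_false, PiLp.add_apply, PiLp.smul_apply,
        smul_eq_mul, PiLp.zero_apply]
      change x 2 = 0 + (_ * (7 / 5 * τ) + _ * (7 / 5 * τ)) + x 0 * (7 / 5 * sB a (a + δ))
      have e3 : ((a + δ) * T - Y) / (τ * δ) * (7 / 5 * τ) + (Y - a * T) / (τ * δ) * (7 / 5 * τ)
          = 7 / 5 * T := by
        linear_combination (7 / 5) * e2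
      rw [e3, hT]
      ring

theorem mem_upper {δ a : ℝ} {x : E3} (hδ : 0 < δ)
    (hτ : 0 < sT δ a)
    (h1 : a * (1 - 5 / 7 * x 2 - sB a (a + δ) * x 1) ≤ -x 0 - sA a (a + δ) * x 1)
    (h2 : -x 0 - sA a (a + δ) * x 1 ≤ (a + δ) * (1 - 5 / 7 * x 2 - sB a (a + δ) * x 1))
    (h3 : 1 - 5 / 7 * x 2 - sB a (a + δ) * x 1 ≤ sT δ a) :
    x ∈ cylinder (‖axDir true a (a + δ)‖⁻¹ • axDir true a (a + δ))
      (cylBase (‖axDir true a (a + δ)‖⁻¹ • axDir true a (a + δ)) (oPt true)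
        (cPt true (sT δ a) a) (cPt true (sT δ a) (a + δ))) := by
  set T := 1 - 5 / 7 * x 2 - sB a (a + δ) * x 1 with hT
  set Y := -x 0 - sA a (a + δ) * x 1 with hY
  set τ := sT δ a
  have hτδ : 0 < τ * δ := mul_pos hτ hδ
  refine mem_cylinder_of (axDir_ne_zero _ _ _) (s := ((a + δ) * T - Y) / (τ * δ))
    (r := (Y - a * T) / (τ * δ)) (k := x 1) ⟨?_, ?_, ?_⟩ ?_
  · exact div_nonneg (by linarith only [h2]) hτδ.le
  · exact div_nonneg (by linarith only [h1]) hτδ.le
  · simp only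
    rw [← add_div, div_le_one hτδ]
    nlinarith only [hδ, h3]
  · have e1 : ((a + δ) * T - Y) / (τ * δ) * (a * τ) + (Y - a * T) / (τ * δ) * ((a + δ) * τ) = Y := by
      field_simp
      ring
    have e2 : ((a + δ) * T - Y) / (τ * δ) * τ + (Y - a * T) / (τ * δ) * τ = T := by
      field_simp
      ring
    ext i
    fin_cases i
    · simp only [axDir, cPt, oPt, if_true, PiLp.add_apply, PiLp.smul_apply, smul_eq_mul]
      change x 0 = 0 + (_ * (-(a * τ)) + _ * (-((a + δ) * τ))) + x 1 * (-(sA a (a + δ)))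
      have e3 : ((a + δ) * T - Y) / (τ * δ) * (-(a * τ)) + (Y - a * T) / (τ * δ) * (-((a + δ) * τ))
          = -Y := by
        linear_combination (-1) * e1
      rw [e3, hY]
      ring
    · simp only [Fin.mk_one, Fin.isValue, oPt, ↓reduceIte, cPt, axDir, PiLp.add_apply, vec_one, PiLp.smul_apply, smul_eq_mul, mul_zero, add_zero, mul_one, zero_add]
    · simp only [axDir, cPt, oPt, if_true, PiLp.add_apply, PiLp.smul_apply, smul_eq_mul]
      change x 2 = 7 / 5 + (_ * (-(7 / 5 * τ)) + _ * (-(7 / 5 * τ)))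
        + x 1 * (-(7 / 5 * sB a (a + δ)))
      have e3 : ((a + δ) * T - Y) / (τ * δ) * (-(7 / 5 * τ))
          + (Y - a * T) / (τ * δ) * (-(7 / 5 * τ)) = -(7 / 5 * T) := by
        linear_combination (-(7 / 5)) * e2
      rw [e3, hT]
      ring

theorem sT_pos {δ a : ℝ} (hδ : 0 ≤ δ) : 0 < sT δ a := by
  unfold sT
  positivity

theorem cell_convert {a c t X Y : ℝ} :
    (a * t + 1 / 100 * (1 - a ^ 2) * X ≤ Y ↔ a * (t - sB a c * X) ≤ Y - sA a c * X) ∧
    (Y ≤ c * t + 1 / 100 * (1 - c ^ 2) * X ↔ Y - sA a c * X ≤ c * (t - sB a c * X)) := by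
  unfold sA sB
  constructor
  · constructor <;> intro h <;> linarith
  · constructor <;> intro h <;> linarith

/-- Every point of the tetrahedron lies in one of the cylinders. -/
theorem tetra_covered {N : ℕ} (hN : 0 < N) {x : E3} (hx : x ∈ tetra) :
    ∃ (b : Bool) (j : Fin N), x ∈ cylinder
      (‖axDir b (grid N j) (grid N j + 2 / N)‖⁻¹ • axDir b (grid N j) (grid N j + 2 / N))
      (cylBase (‖axDir b (grid N j) (grid N j + 2 / N)‖⁻¹ • axDir b (grid N j) (grid N j + 2 / N))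
        (oPt b) (cPt b (sT (2 / N) (grid N j)) (grid N j))
        (cPt b (sT (2 / N) (grid N j)) (grid N j + 2 / N))) := by
  have hNr : (0 : ℝ) < N := by exact_mod_cast hN
  have hδ : (0 : ℝ) < 2 / N := by positivity
  obtain ⟨hx0, hx1⟩ := hx
  obtain ⟨a1, a2⟩ := abs_le.mp hx0
  obtain ⟨b1, b2⟩ := abs_le.mp hx1
  obtain ⟨j, hj, j1, j2⟩ := exists_fan_cell hN (p := 1 / 100) (X := x 0) b1 b2
  obtain ⟨i, hi, i1, i2⟩ := exists_fan_cell hN (p := 1 / 100) (X := x 1) (Y := -x 0)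
    (t := 1 - 5 / 7 * x 2) (by linarith only [a2]) (by linarith only [a1])
  have j1' := (cell_convert (c := grid N (j + 1))).1.mp j1
  have j2' := (cell_convert (a := grid N j)).2.mp j2
  have i1' := (cell_convert (c := grid N (i + 1))).1.mp i1
  have i2' := (cell_convert (a := grid N i)).2.mp i2
  have ejs := grid_succ N j
  have eis := grid_succ N i
  have hcj : grid N (j + 1) ≤ 1 := grid_le hN hj
  have hci : grid N (i + 1) ≤ 1 := grid_le hN hi
  rw [ejs] at j1' j2' hcj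
  rw [eis] at i1' i2' hci
  rcases cover_key hδ.le (by linarith only [a1, b1, b2]) (by linarith only [a2, b1, b2]) (by linarith only [a1, a2, b1]) (by linarith only [a1, a2, b2])
    (grid_ge N j) hcj rfl (grid_ge N i) hci rfl j1' j2' i1' i2' with h | h
  · exact ⟨false, ⟨j, hj⟩, mem_lower hδ (sT_pos hδ.le) j1' j2' h⟩
  · exact ⟨true, ⟨i, hi⟩, mem_upper hδ (sT_pos hδ.le) i1' i2' h⟩

/-- The explicit covering with total base area less than half of the minimal shadow; all the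
bases are triangles. -/
theorem exists_small_covering_convex :
    ∃ C : CylinderCovering tetra, C.totalArea ≤ 7 / 10 - 28 / 10000000 ∧
      ∀ k, IsCompact (C.base k) ∧ Convex ℝ (C.base k) := by
  obtain ⟨N, hNeq⟩ : ∃ N : ℕ, N = 1000000 := ⟨_, rfl⟩
  have hN : 0 < N := by omega
  have hNr : (0 : ℝ) < N := by exact_mod_cast hN
  have hδ : (0 : ℝ) ≤ 2 / N := by positivity
  obtain ⟨C, hC, hCb⟩ := exists_covering_fintype (K := tetra) (ι := Bool × Fin N)
    (fun i => ‖axDir i.1 (grid N i.2) (grid N i.2 + 2 / N)‖⁻¹ •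
      axDir i.1 (grid N i.2) (grid N i.2 + 2 / N))
    (fun i => norm_inv_smul (axDir_ne_zero _ _ _))
    (fun i => cylBase _ (oPt i.1) (cPt i.1 (sT (2 / N) (grid N i.2)) (grid N i.2))
        (cPt i.1 (sT (2 / N) (grid N i.2)) (grid N i.2 + 2 / N)))
    (fun i => (isCompact_cylBase _ _ _ _).measurableSet.nullMeasurableSet)
    (fun i => (isCompact_cylBase _ _ _ _).measure_lt_top.ne)
    (fun x hx => by
      obtain ⟨b, j, h⟩ := tetra_covered hN hx
      exact Set.mem_iUnion.mpr ⟨(b, j), h⟩)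
  refine ⟨C, ?_, ?_⟩
  · rw [hC, Fintype.sum_prod_type]
    simp only [area_base _ hδ, Fintype.sum_bool]
    rw [← Finset.mul_sum, Fin.sum_univ_eq_sum_range (fun j => cellCost (2 / N) (grid N j)) N]
    have := sum_cellCost_lt hNeq
    linarith only [this]
  · exact hCb (fun u B => IsCompact B ∧ Convex ℝ B)
      (fun i => ⟨isCompact_cylBase _ _ _ _, convex_cylBase _ _ _ _⟩)

end Vale.Agent.P243
end
end
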